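import Vale.Agent.P249.H557.Embed

/-!
# P249: flat families embed in `ℓ_p^d`: explicit constants
-/

set_option linter.all false

open scoped BigOperators ENNReal

namespace Vale.Agent.P249.H206

open Vale.Agent.P249 Vale.Agent.P249.H557

/-- Theorem A for coordinates, with explicit constants. -/
theorem flat_embed_x (p : ℝ≥0∞) [Fact (1 ≤ p)] (hp : p ≠ ∞) (r : ℝ) (hpr : p.toReal < r)
    (CK : ℝ) (hCK1 : 1 ≤ CK) (V : Type) [Fintype V] [Nonempty V] (M : ℕ) (hM : 0 < M)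
    (g : V → Fin M → ℝ)
    (hK : HasKernels r (lpd r g) (CK * (1 + Real.log (Fintype.card V)) ^ (1 + r / 2)))
    (A : ℝ) (hA : 1 ≤ A)
    (hflat : ∀ x y, (M : ℝ) ^ (-(1 / r)) * lpd r g x y ≤
      A * ((M : ℝ) ^ (-(1 / p.toReal)) * lpd p.toReal g x y))
    (δ : ℝ) (hδ : 0 < δ) (hδ1 : δ ≤ 1) :
    ∃ (d : ℕ) (W : V → PiLp p (fun _ : Fin d => ℝ)),
      (d : ℝ) ≤ (32 * 8 ^ p.toReal + 2) * (80 * 2 ^ p.toReal * CK) ^
          (p.toReal / (r / p.toReal - 1)) *
        (A * (1 + Real.log (Fintype.card V)) / δ) ^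
          ((1 + r / 2) * p.toReal / (r / p.toReal - 1) + p.toReal + 2) ∧
      ∀ x y, (1 - δ) * lpd p.toReal g x y ^ p.toReal ≤ ‖W x - W y‖ ^ p.toReal ∧
        ‖W x - W y‖ ^ p.toReal ≤ (1 + δ) * lpd p.toReal g x y ^ p.toReal := by
  have hP0 := toReal_pos_of_fact (p := p) hp
  have hP1 := one_le_toReal_of_fact (p := p) hp
  set P := p.toReal with hPdef
  have hr1 : 1 < r := by linarith
  have hr0 : 0 < r := by linarith
  have hβ : 0 < r / P - 1 := by rw [sub_pos, one_lt_div hP0]; exact hpr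
  have h2P1 : (1 : ℝ) ≤ 2 ^ P := Real.one_le_rpow (by norm_num) hP0.le
  have hP2P : P ≤ 2 ^ P := by
    have h := one_add_mul_self_le_rpow_one_add (s := 1) (by norm_num) hP1
    norm_num at h
    linarith
  set B : ℝ := 80 * 2 ^ P * CK with hB
  have hB1 : 1 ≤ B := by rw [hB]; nlinarith
  have hM0 : (0 : ℝ) < M := by exact_mod_cast hM
  have hcard : (1 : ℝ) ≤ Fintype.card V := by exact_mod_cast Fintype.card_pos
  have hl0 : 0 ≤ Real.log (Fintype.card V) := Real.log_nonneg hcard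
  set l : ℝ := 1 + Real.log (Fintype.card V) with hl
  have hl1 : 1 ≤ l := by rw [hl]; linarith
  set Q : ℝ := A * l / δ with hQ
  have hQ1 : 1 ≤ Q := by
    rw [hQ, le_div_iff₀ hδ]
    nlinarith
  set U : ℝ := CK * l ^ (1 + r / 2) with hU
  have hlr : 1 ≤ l ^ (1 + r / 2) := Real.one_le_rpow hl1 (by positivity)
  have hU1 : 1 ≤ U := by rw [hU]; exact one_le_mul_of_one_le_of_one_le hCK1 hlr
  set e : ℝ := δ / (2 * 2 ^ P) with he
  have he0 : 0 < e := by positivity
  have he1 : e ≤ 1 := by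
    rw [he, div_le_one (by positivity)]
    linarith
  have he2 : 2 ^ P * e = δ / 2 := by rw [he]; field_simp
  obtain ⟨Λ, hΛ1, hΛ, hE⟩ := exists_level hP1 hpr hA (by linarith : 1 ≤ 8 * U) he0 he1
  have hΛ0 : 0 < Λ := by linarith
  obtain ⟨H, hH1, hH2⟩ := flat_trunc hP1 hpr hM g (by linarith : 0 < A) (by linarith : 0 ≤ U) hΛ0
    hK hflat
  set ρ : V → V → ℝ := fun x y => lpd P g x y with hρ
  have hρ0 : ∀ x y, 0 ≤ ρ x y := fun x y => lpd_nonneg g x y
  have hHe : ∀ x y, |lpd P H x y - ρ x y| ≤ e * ρ x y := fun x y =>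
    (hH2 x y).trans (mul_le_mul_of_nonneg_right hE (hρ0 x y))
  have hHP : ∀ x y, |lpd P H x y ^ P - ρ x y ^ P| ≤ δ / 2 * ρ x y ^ P := fun x y =>
    near_pow hP1 (lpd_nonneg H x y) (hρ0 x y) he0.le he1 (hHe x y) he2.le
      ((mul_le_mul_of_nonneg_right hP2P he0.le).trans he2.le)
  -- sampling
  set Uf : V → PiLp p (fun _ : Fin M => ℝ) := fun x => WithLp.toLp p (H x) with hUf
  have hUn : ∀ x y, lpd P H x y = ‖Uf x - Uf y‖ := fun x y => lpd_eq_norm hp H x y
  set θ : ℝ := 4 * Λ * A * (M : ℝ) ^ (-(1 / P)) with hθ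
  have hθ0 : 0 < θ := by positivity
  have hNθ : (M : ℝ) * θ ^ P = (4 * Λ * A) ^ P := by
    rw [hθ, Real.mul_rpow (by positivity) (by positivity), ← Real.rpow_mul hM0.le]
    have : -(1 / P) * P = -1 := by field_simp
    rw [this, Real.rpow_neg_one]
    field_simp
  set X : ℝ := 4 * (M * θ ^ P) * 2 ^ P * Real.log (2 * (Fintype.card V : ℝ) ^ 2 + 1) /
    (δ / 2) ^ 2 with hX
  have hlogn : Real.log (2 * (Fintype.card V : ℝ) ^ 2 + 1) ≤ 2 * l := by
    have h1 : 2 * (Fintype.card V : ℝ) ^ 2 + 1 ≤ 3 * (Fintype.card V : ℝ) ^ 2 := by nlinarith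
    have h2 : Real.log (3 * (Fintype.card V : ℝ) ^ 2) =
        Real.log 3 + 2 * Real.log (Fintype.card V) := by
      rw [Real.log_mul (by norm_num) (by positivity), Real.log_pow]
      push_cast; ring
    have h3 : Real.log 3 ≤ 2 := by
      have := Real.log_le_sub_one_of_pos (show (0 : ℝ) < 3 by norm_num)
      linarith
    have h4 := Real.log_le_log (by positivity) h1
    rw [hl]
    linarith
  have hlogn0 : 0 ≤ Real.log (2 * (Fintype.card V : ℝ) ^ 2 + 1) :=
    Real.log_nonneg (by nlinarith)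
  have hX0 : 0 ≤ X := by positivity
  set m : ℕ := ⌈X⌉₊ + 1 with hm
  have hm0 : 0 < m := Nat.succ_pos _
  have hXm : X ≤ m := by
    rw [hm]; push_cast
    have := Nat.le_ceil X
    linarith
  have hmX : (m : ℝ) ≤ X + 2 := by
    rw [hm]; push_cast
    have := Nat.ceil_lt_add_one hX0
    linarith
  obtain ⟨W, -, hW⟩ := sample_map hp hM hm0 Uf ρ hρ0 θ hθ0
    (by
      intro x y i
      have h1 := hH1 x y i
      exact h1)
    2 (δ / 2) (by norm_num)
    (by
      intro x y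
      have h1 := (abs_le.1 (hHe x y)).2
      rw [← hUn]
      have h2 := mul_le_mul_of_nonneg_right he1 (hρ0 x y)
      linarith)
    (by linarith)
    (by
      have h1 : (1 : ℝ) ≤ 2 ^ P := h2P1
      linarith)
    (by
      have h1 : 0 < (δ / 2) ^ 2 := by positivity
      rw [hX, div_le_iff₀ h1] at hXm
      linarith)
  refine ⟨m, W, ?_, fun x y => ?_⟩
  · -- the dimension
    have hΛP := level_le hP1 hpr hCK1 hA hl1 hδ hδ1 hQ hB he hΛ
    have hXle : X ≤ 4 * ((4 * Λ * A) ^ P) * 2 ^ P * (2 * l) / (δ / 2) ^ 2 := by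
      rw [hX, hNθ]
      have h1 : 0 ≤ 4 * (4 * Λ * A) ^ P * 2 ^ P := by positivity
      exact div_le_div_of_nonneg_right (mul_le_mul_of_nonneg_left hlogn h1) (sq_nonneg _)
    have hfin := dim_le hP1 hA hl1 hδ hδ1 hQ hB1 (by positivity) (by positivity) hΛ0.le hΛP hXle
      hmX
    exact hfin
  · have h1 := abs_le.1 (hW x y)
    have h2 := abs_le.1 (hHP x y)
    rw [hUn] at h2
    constructor <;> linarith [h1.1, h1.2, h2.1, h2.2]


end Vale.Agent.P249.H206
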