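import Vale.Agent.P249.H557.Embed

/-!
# P249: kernels with constants uniform in the exponent `r ∈ [1, P₀]`, `P₀ < 2`
-/

set_option linter.all false

open scoped BigOperators ENNReal

namespace Vale.Agent.P249.H206

open Vale.Agent.P249

/-- The snowflake map with explicit constants. -/
theorem snowflake_explicit (P : ℝ) (hP1 : 1 ≤ P) (h2 : P < 2) {V : Type*} [Fintype V] {N : ℕ}
    (f : V → Fin N → ℝ) :
    ∃ (M : ℕ) (φ : V → EuclideanSpace ℝ (Fin M)), ∀ x y,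
      (8 / 9 * ((2:ℝ) ^ P)⁻¹) * ∑ i, |f x i - f y i| ^ P ≤ ‖φ x - φ y‖ ^ 2 ∧
        ‖φ x - φ y‖ ^ 2 ≤ (8 + 4 * (1 - (2:ℝ) ^ P / 4)⁻¹) * ∑ i, |f x i - f y i| ^ P := by
  classical
  have hX0 : (0:ℝ) < 2 ^ P := by positivity
  -- the set of scales
  set S : Finset ℤ := (Finset.univ : Finset (V × V × Fin N)).image
    (fun a => Int.log 2 |f a.1 a.2.2 - f a.2.1 a.2.2|) with hSdef
  have hS : ∀ x y i, ∀ m : ℤ, (2:ℝ) ^ m ≤ |f x i - f y i| → |f x i - f y i| < (2:ℝ) ^ (m + 1) →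
      m ∈ S := by
    intro x y i m hm1 hm2
    have hr : 0 < |f x i - f y i| := lt_of_lt_of_le (zpow_pos (by norm_num) _) hm1
    have h3 : m ≤ Int.log 2 |f x i - f y i| :=
      (Int.zpow_le_iff_le_log (by norm_num) hr).1 (by exact_mod_cast hm1)
    have h4 : Int.log 2 |f x i - f y i| < m + 1 :=
      (Int.lt_zpow_iff_log_lt (by norm_num) hr).1 (by exact_mod_cast hm2)
    have h5 : m = Int.log 2 |f x i - f y i| := by omega
    rw [hSdef, Finset.mem_image]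
    exact ⟨(x, y, i), Finset.mem_univ _, h5.symm⟩
  obtain ⟨M, ψ, hψ⟩ := euclid_reindex (V := V) (ι := Fin N × S × Bool)
    (fun x a => Real.sqrt (((2:ℝ) ^ P) ^ (a.2.1 : ℤ)) *
      (if a.2.2 then Real.cos ((2:ℝ) ^ (-(a.2.1 : ℤ)) * f x a.1)
        else Real.sin ((2:ℝ) ^ (-(a.2.1 : ℤ)) * f x a.1)))
  refine ⟨M, ψ, fun x y => ?_⟩
  have hkey : ‖ψ x - ψ y‖ ^ 2 = ∑ i, snow P S (f x i - f y i) := by
    rw [hψ, Fintype.sum_prod_type]
    refine Finset.sum_congr rfl fun i _ => ?_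
    rw [Fintype.sum_prod_type]
    unfold snow
    rw [← Finset.sum_coe_sort S]
    refine Finset.sum_congr rfl fun k _ => ?_
    rw [Fintype.sum_bool]
    simp only [if_true, Bool.false_eq_true, if_false]
    rw [← mul_sub, ← mul_sub, mul_pow, mul_pow, Real.sq_sqrt (zpow_nonneg hX0.le _), ← mul_add]
    congr 1
    have h1 : (2:ℝ) ^ (-(k:ℤ)) * (f x i - f y i) =
        (2:ℝ) ^ (-(k:ℤ)) * f x i - (2:ℝ) ^ (-(k:ℤ)) * f y i := by ring
    rw [h1, Real.cos_sub]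
    have h2 := Real.sin_sq_add_cos_sq ((2:ℝ) ^ (-(k:ℤ)) * f x i)
    have h3 := Real.sin_sq_add_cos_sq ((2:ℝ) ^ (-(k:ℤ)) * f y i)
    nlinarith only [h2, h3]
  rw [hkey]
  constructor
  · rw [Finset.mul_sum]
    exact Finset.sum_le_sum fun i _ => le_snow hP1 S _ (hS x y i)
  · rw [Finset.mul_sum]
    exact Finset.sum_le_sum fun i _ => snow_le hP1 h2 S _

/-- The kernels with the explicit constant. -/
theorem kernels_explicit (P : ℝ) (hP1 : 1 ≤ P) (h2 : P < 2) {V : Type*} [Fintype V] [Nonempty V]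
    {N : ℕ} (f : V → Fin N → ℝ) :
    HasKernels P (lpd P f) (512 * (8 + 4 * (1 - (2:ℝ) ^ P / 4)⁻¹) / (8 / 9 * ((2:ℝ) ^ P)⁻¹) *
      Real.log (Fintype.card V)) := by
  have hx2 : (2:ℝ) ^ P < 4 := by
    have := Real.rpow_lt_rpow_of_exponent_lt (by norm_num : (1:ℝ) < 2) h2
    norm_num at this
    exact this
  have hinv : 0 < (1 - (2:ℝ) ^ P / 4)⁻¹ := inv_pos.2 (by linarith only [hx2])
  obtain ⟨M, φ, hφ⟩ := snowflake_explicit P hP1 h2 f
  refine hasKernels_of_snowflake P hP1 _ _ (by positivity) (by linarith) f φ ?_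
    (fun s hs => gaussian_kernel φ s hs)
  intro x y
  rw [lpd_rpow f (by linarith)]
  exact hφ x y

theorem HasKernels.mono {P : ℝ} {V : Type*} [Fintype V] {ρ : V → V → ℝ} {U U' : ℝ}
    (h : HasKernels P ρ U) (hU : U ≤ U') : HasKernels P ρ U' := by
  intro J
  obtain ⟨K, h1, h2, h3⟩ := h J
  exact ⟨K, h1, h2, fun x => (h3 x).trans hU⟩

/-- The kernels with one constant for all `r ∈ [1, P₀]`. -/
theorem kernels_uniform (P₀ : ℝ) (hP₀ : P₀ < 2) : ∃ CK : ℝ, 1 ≤ CK ∧ ∀ r : ℝ, 1 ≤ r → r ≤ P₀ →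
    ∀ {V : Type} [Fintype V] [Nonempty V] {N : ℕ} (f : V → Fin N → ℝ),
      HasKernels r (lpd r f) (CK * (1 + Real.log (Fintype.card V)) ^ (1 + r / 2)) := by
  have key : ∀ r : ℝ, r < 2 → (2:ℝ) ^ r < 4 := by
    intro r hr
    have := Real.rpow_lt_rpow_of_exponent_lt (by norm_num : (1:ℝ) < 2) hr
    norm_num at this
    exact this
  have hx0 := key P₀ hP₀
  have hinv0 : 0 < (1 - (2:ℝ) ^ P₀ / 4)⁻¹ := inv_pos.2 (by linarith only [hx0])
  refine ⟨max (512 * (8 + 4 * (1 - (2:ℝ) ^ P₀ / 4)⁻¹) / (8 / 9 * 4⁻¹)) 1, le_max_right _ _,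
    fun r hr1 hr {V} _ _ {N} f => ?_⟩
  have hr2 : r < 2 := lt_of_le_of_lt hr hP₀
  have hx := key r hr2
  have hxle : (2:ℝ) ^ r ≤ 2 ^ P₀ := Real.rpow_le_rpow_of_exponent_le (by norm_num) hr
  have hxpos : (0:ℝ) < 2 ^ r := by positivity
  have hinv : 0 < (1 - (2:ℝ) ^ r / 4)⁻¹ := inv_pos.2 (by linarith only [hx])
  have hcard : (1 : ℝ) ≤ Fintype.card V := by exact_mod_cast Fintype.card_pos
  have hl0 : 0 ≤ Real.log (Fintype.card V) := Real.log_nonneg hcard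
  have h1 : Real.log (Fintype.card V) ≤ (1 + Real.log (Fintype.card V)) ^ (1 + r / 2) := by
    calc Real.log (Fintype.card V) ≤ 1 + Real.log (Fintype.card V) := by linarith
      _ = (1 + Real.log (Fintype.card V)) ^ (1 : ℝ) := (Real.rpow_one _).symm
      _ ≤ _ := Real.rpow_le_rpow_of_exponent_le (by linarith) (by linarith)
  refine HasKernels.mono (kernels_explicit r hr1 hr2 f) ?_
  have hc : 512 * (8 + 4 * (1 - (2:ℝ) ^ r / 4)⁻¹) / (8 / 9 * ((2:ℝ) ^ r)⁻¹) ≤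
      512 * (8 + 4 * (1 - (2:ℝ) ^ P₀ / 4)⁻¹) / (8 / 9 * 4⁻¹) := by
    have h3 : (1 - (2:ℝ) ^ r / 4)⁻¹ ≤ (1 - (2:ℝ) ^ P₀ / 4)⁻¹ :=
      inv_anti₀ (by linarith) (by linarith)
    have h4 : (4:ℝ)⁻¹ ≤ ((2:ℝ) ^ r)⁻¹ := inv_anti₀ hxpos hx.le
    apply div_le_div₀ (by positivity) (by linarith) (by positivity) (by linarith)
  exact mul_le_mul (hc.trans (le_max_left _ _)) h1 hl0
    (le_trans zero_le_one (le_max_right _ _))

end Vale.Agent.P249.H206
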