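import Vale.Agent.P249.H557.Prob
import Vale.Agent.P249.H206.FlatX

/-!
# P249: flat families of `L_p` of a probability space: explicit constants
-/

set_option linter.all false

open MeasureTheory
open scoped BigOperators ENNReal

namespace Vale.Agent.P249.H206

open Vale.Agent.P249 Vale.Agent.P249.H557

theorem prob_embed_x (p : ℝ≥0∞) [Fact (1 ≤ p)] (hp : p ≠ ∞) (r : ℝ) (hpr : p.toReal < r)
    (CK : ℝ) (hCK1 : 1 ≤ CK) (V : Type) [Fintype V] [Nonempty V]
    (hK : ∀ {M : ℕ} (g : V → Fin M → ℝ),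
      HasKernels r (lpd r g) (CK * (1 + Real.log (Fintype.card V)) ^ (1 + r / 2)))
    {Ω : Type} [MeasurableSpace Ω]
    (μ : Measure Ω) [IsProbabilityMeasure μ] (F : V → Ω → ℝ) (hF : ∀ x, Measurable (F x))
    (ρ : V → V → ℝ) (hρ0 : ∀ x, ρ x x = 0) (hρpos : ∀ x y, x ≠ y → 0 < ρ x y)
    (A : ℝ) (hA : 1 ≤ A) (ε : ℝ) (hε : 0 < ε) (hε1 : ε ≤ 1)
    (hFp : ∀ x y, Integrable (fun ω => |F x ω - F y ω| ^ p.toReal) μ ∧
        (1 - ε / 16) * ρ x y ^ p.toReal ≤ ∫ ω, |F x ω - F y ω| ^ p.toReal ∂μ ∧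
        ∫ ω, |F x ω - F y ω| ^ p.toReal ∂μ ≤ (1 + ε / 16) * ρ x y ^ p.toReal)
    (hFr : ∀ x y, Integrable (fun ω => |F x ω - F y ω| ^ r) μ ∧
        ∫ ω, |F x ω - F y ω| ^ r ∂μ ≤ (A * ρ x y) ^ r) :
    ∃ (d : ℕ) (W : V → PiLp p (fun _ : Fin d => ℝ)) (s : ℝ), 0 < s ∧
      (d : ℝ) ≤ (32 * 8 ^ p.toReal + 2) * (80 * 2 ^ p.toReal * CK) ^
          (p.toReal / (r / p.toReal - 1)) *
        (64 * (A * (1 + Real.log (Fintype.card V)) / ε)) ^
          ((1 + r / 2) * p.toReal / (r / p.toReal - 1) + p.toReal + 2) ∧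
      ∀ x y, s * ρ x y ≤ ‖W x - W y‖ ∧ ‖W x - W y‖ ≤ (1 + ε) * s * ρ x y := by
  classical
  have hP0 := toReal_pos_of_fact (p := p) hp
  have hP1 := one_le_toReal_of_fact (p := p) hp
  have hC := flat_embed_x p hp r hpr CK hCK1 V
  set P := p.toReal with hPdef
  have hr0 : 0 < r := by linarith
  have hcard : (1 : ℝ) ≤ Fintype.card V := by exact_mod_cast Fintype.card_pos
  have hl0 : 0 ≤ Real.log (Fintype.card V) := Real.log_nonneg hcard
  have hρnn : ∀ x y, 0 ≤ ρ x y := by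
    intro x y
    rcases eq_or_ne x y with h | h
    · rw [h, hρ0]
    · exact (hρpos x y h).le
  -- the tolerance
  obtain ⟨η, hη0, hη1, hη2⟩ : ∃ η : ℝ, 0 < η ∧ (∀ x y, x ≠ y → η ≤ ε / 16 * ρ x y ^ P) ∧
      ∀ x y, x ≠ y → η ≤ ρ x y ^ r := by
    have h : ∃ η : ℝ, 0 < η ∧ ∀ a : V × V, a.1 ≠ a.2 →
        η ≤ min (ε / 16 * ρ a.1 a.2 ^ P) (ρ a.1 a.2 ^ r) := by
      by_cases hne : (Finset.univ.filter (fun a : V × V => a.1 ≠ a.2)).Nonempty
      · obtain ⟨a, ha, hmin⟩ := Finset.exists_min_image _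
          (fun a : V × V => min (ε / 16 * ρ a.1 a.2 ^ P) (ρ a.1 a.2 ^ r)) hne
        have ha' := (Finset.mem_filter.1 ha).2
        have h1 := hρpos a.1 a.2 ha'
        refine ⟨min (ε / 16 * ρ a.1 a.2 ^ P) (ρ a.1 a.2 ^ r), lt_min (by positivity)
          (by positivity), fun b hb => ?_⟩
        exact hmin b (Finset.mem_filter.2 ⟨Finset.mem_univ b, hb⟩)
      · refine ⟨1, one_pos, fun b hb => ?_⟩
        exact absurd ⟨b, Finset.mem_filter.2 ⟨Finset.mem_univ b, hb⟩⟩ hne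
    obtain ⟨η, h0, h⟩ := h
    exact ⟨η, h0, fun x y hxy => (h (x, y) hxy).trans (min_le_left _ _),
      fun x y hxy => (h (x, y) hxy).trans (min_le_right _ _)⟩
  -- the sample
  obtain ⟨M, hM, w, hw⟩ := lln μ (ι := V × V × Bool)
    (fun a ω => if a.2.2 then |F a.1 ω - F a.2.1 ω| ^ P else |F a.1 ω - F a.2.1 ω| ^ r)
    (by
      intro a
      have h1 : Measurable (fun ω => F a.1 ω - F a.2.1 ω) := (hF a.1).sub (hF a.2.1)
      rcases a with ⟨x, y, b⟩
      cases b
      · simp only [Bool.false_eq_true, if_false]; fun_prop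
      · simp only [if_true]; fun_prop)
    (by
      rintro ⟨x, y, b⟩
      cases b
      · simpa using (hFr x y).1
      · simpa using (hFp x y).1) hη0
  have hM0 : (0 : ℝ) < M := by exact_mod_cast hM
  set g : V → Fin M → ℝ := fun x i => F x (w i) with hg
  have hwp : ∀ x y, |(∑ i, |g x i - g y i| ^ P) / M - ∫ ω, |F x ω - F y ω| ^ P ∂μ| ≤ η := by
    intro x y
    have := hw (x, y, true)
    simpa using this
  have hwr : ∀ x y, |(∑ i, |g x i - g y i| ^ r) / M - ∫ ω, |F x ω - F y ω| ^ r ∂μ| ≤ η := by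
    intro x y
    have := hw (x, y, false)
    simpa using this
  have hgP : ∀ x y, (1 - ε / 8) * ρ x y ^ P ≤ (∑ i, |g x i - g y i| ^ P) / M ∧
      (∑ i, |g x i - g y i| ^ P) / M ≤ (1 + ε / 8) * ρ x y ^ P := by
    intro x y
    rcases eq_or_ne x y with h | h
    · subst h
      simp [hρ0, Real.zero_rpow hP0.ne']
    · have h1 := abs_le.1 (hwp x y)
      have h2 := hη1 x y h
      obtain ⟨-, h3, h4⟩ := hFp x y
      constructor <;> linarith [h1.1, h1.2]
  have hgr : ∀ x y, (∑ i, |g x i - g y i| ^ r) / M ≤ 2 * (A * ρ x y) ^ r := by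
    intro x y
    rcases eq_or_ne x y with h | h
    · subst h
      simp [hρ0, Real.zero_rpow hr0.ne']
    · have h1 := abs_le.1 (hwr x y)
      have h2 := hη2 x y h
      have h3 := (hFr x y).2
      have h4 : ρ x y ^ r ≤ (A * ρ x y) ^ r := by
        apply Real.rpow_le_rpow (hρnn x y) _ hr0.le
        nlinarith [hρnn x y]
      linarith [h1.1, h1.2]
  -- flatness
  have hflat : ∀ x y, (M : ℝ) ^ (-(1 / r)) * lpd r g x y ≤
      (4 * A) * ((M : ℝ) ^ (-(1 / P)) * lpd P g x y) := by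
    intro x y
    rw [inv_rpow_lpd hr0 hM, inv_rpow_lpd hP0 hM]
    have hs0 : ∀ q : ℝ, 0 ≤ (∑ i, |g x i - g y i| ^ q) / M := fun q =>
      div_nonneg (Finset.sum_nonneg fun i _ => Real.rpow_nonneg (abs_nonneg _) _) hM0.le
    have h1 : ((∑ i, |g x i - g y i| ^ r) / M) ^ (1 / r) ≤ 2 * (A * ρ x y) := by
      have hAρ : 0 ≤ A * ρ x y := mul_nonneg (by linarith) (hρnn x y)
      calc ((∑ i, |g x i - g y i| ^ r) / M) ^ (1 / r) ≤ (2 * (A * ρ x y) ^ r) ^ (1 / r) :=
            Real.rpow_le_rpow (hs0 r) (hgr x y) (by positivity)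
        _ = 2 ^ (1 / r) * (A * ρ x y) := by
            rw [Real.mul_rpow (by norm_num) (Real.rpow_nonneg hAρ _), ← Real.rpow_mul hAρ,
              mul_one_div_cancel hr0.ne', Real.rpow_one]
        _ ≤ 2 * (A * ρ x y) := by
            apply mul_le_mul_of_nonneg_right _ hAρ
            calc (2 : ℝ) ^ (1 / r) ≤ 2 ^ (1 : ℝ) :=
                  Real.rpow_le_rpow_of_exponent_le (by norm_num) (by
                    rw [div_le_one hr0]; linarith)
              _ = 2 := Real.rpow_one _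
    have h2 : (1 / 2) * ρ x y ≤ ((∑ i, |g x i - g y i| ^ P) / M) ^ (1 / P) := by
      have h3 : (1 / 2 : ℝ) * ρ x y ^ P ≤ (∑ i, |g x i - g y i| ^ P) / M := by
        refine le_trans ?_ (hgP x y).1
        apply mul_le_mul_of_nonneg_right _ (Real.rpow_nonneg (hρnn x y) _)
        linarith
      have h4 : ((1 / 2 : ℝ) * ρ x y) ^ P ≤ (1 / 2 : ℝ) * ρ x y ^ P := by
        rw [Real.mul_rpow (by norm_num) (hρnn x y)]
        apply mul_le_mul_of_nonneg_right _ (Real.rpow_nonneg (hρnn x y) _)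
        calc (1 / 2 : ℝ) ^ P ≤ (1 / 2 : ℝ) ^ (1 : ℝ) :=
              Real.rpow_le_rpow_of_exponent_ge (by norm_num) (by norm_num) hP1
          _ = 1 / 2 := Real.rpow_one _
      have h0 : 0 ≤ (1 / 2 : ℝ) * ρ x y := mul_nonneg (by norm_num) (hρnn x y)
      have h5 := Real.rpow_le_rpow (Real.rpow_nonneg h0 _) (h4.trans h3)
        (by positivity : 0 ≤ 1 / P)
      rwa [← Real.rpow_mul h0, mul_one_div_cancel hP0.ne', Real.rpow_one] at h5
    calc ((∑ i, |g x i - g y i| ^ r) / M) ^ (1 / r) ≤ 4 * A * ((1 / 2) * ρ x y) := by linarith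
      _ ≤ 4 * A * ((∑ i, |g x i - g y i| ^ P) / M) ^ (1 / P) :=
          mul_le_mul_of_nonneg_left h2 (by linarith)
  obtain ⟨d, W, hd, hW⟩ := hC M hM g (hK g) (4 * A) (by linarith) hflat (ε / 16) (by positivity)
    (by linarith)
  -- scaling
  have hlpd : ∀ x y, lpd P g x y ^ P = M * ((∑ i, |g x i - g y i| ^ P) / M) := by
    intro x y
    rw [lpd_rpow g hP0]
    field_simp
  set s : ℝ := ((M : ℝ) * (1 - ε / 4)) ^ (1 / P) with hs
  have hε4 : 0 < 1 - ε / 4 := by linarith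
  have hs0 : 0 < s := Real.rpow_pos_of_pos (by positivity) _
  have hsP : s ^ P = M * (1 - ε / 4) := by
    rw [hs, ← Real.rpow_mul (by positivity), one_div_mul_cancel hP0.ne', Real.rpow_one]
  refine ⟨d, W, s, hs0, ?_, fun x y => ?_⟩
  · refine hd.trans ?_
    have e1 : 4 * A * (1 + Real.log (Fintype.card V)) / (ε / 16) =
        64 * (A * (1 + Real.log (Fintype.card V)) / ε) := by
      field_simp
      ring
    rw [e1]
  · have hρP : 0 ≤ ρ x y ^ P := Real.rpow_nonneg (hρnn x y) _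
    obtain ⟨h1, h2⟩ := hW x y
    obtain ⟨h3, h4⟩ := hgP x y
    rw [hlpd] at h1 h2
    have h5 : M * ((1 - ε / 4) * ρ x y ^ P) ≤ ‖W x - W y‖ ^ P := by
      refine le_trans ?_ h1
      calc M * ((1 - ε / 4) * ρ x y ^ P) ≤ M * ((1 - ε / 16) * ((1 - ε / 8) * ρ x y ^ P)) := by
            apply mul_le_mul_of_nonneg_left _ hM0.le
            nlinarith
        _ ≤ M * ((1 - ε / 16) * ((∑ i, |g x i - g y i| ^ P) / M)) := by
            apply mul_le_mul_of_nonneg_left _ hM0.le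
            exact mul_le_mul_of_nonneg_left h3 (by linarith)
        _ = _ := by ring
    have h6 : ‖W x - W y‖ ^ P ≤ M * ((1 + ε / 4) * ρ x y ^ P) := by
      refine h2.trans ?_
      calc (1 + ε / 16) * (M * ((∑ i, |g x i - g y i| ^ P) / M))
          ≤ (1 + ε / 16) * (M * ((1 + ε / 8) * ρ x y ^ P)) := by
            apply mul_le_mul_of_nonneg_left _ (by linarith)
            exact mul_le_mul_of_nonneg_left h4 hM0.le
        _ = M * ((1 + ε / 16) * (1 + ε / 8) * ρ x y ^ P) := by ring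
        _ ≤ M * ((1 + ε / 4) * ρ x y ^ P) := by
            apply mul_le_mul_of_nonneg_left _ hM0.le
            apply mul_le_mul_of_nonneg_right _ hρP
            nlinarith
    constructor
    · have h7 : (s * ρ x y) ^ P ≤ ‖W x - W y‖ ^ P := by
        rw [Real.mul_rpow hs0.le (hρnn x y), hsP]
        linarith
      exact (Real.rpow_le_rpow_iff (mul_nonneg hs0.le (hρnn x y)) (norm_nonneg _) hP0).1 h7
    · have h7 : ‖W x - W y‖ ^ P ≤ ((1 + ε) * s * ρ x y) ^ P := by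
        rw [Real.mul_rpow (by positivity) (hρnn x y), Real.mul_rpow (by positivity) hs0.le, hsP]
        refine h6.trans ?_
        have h8 : (1 + ε) ≤ (1 + ε) ^ P := by
          nth_rewrite 1 [← Real.rpow_one (1 + ε)]
          exact Real.rpow_le_rpow_of_exponent_le (by linarith) hP1
        have h9 : (1 + ε / 4) ≤ (1 + ε) * (1 - ε / 4) := by nlinarith
        calc M * ((1 + ε / 4) * ρ x y ^ P) ≤ M * (((1 + ε) * (1 - ε / 4)) * ρ x y ^ P) := by
              gcongr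
          _ = (1 + ε) * (M * (1 - ε / 4)) * ρ x y ^ P := by ring
          _ ≤ (1 + ε) ^ P * (M * (1 - ε / 4)) * ρ x y ^ P := by gcongr
      have h10 : 0 ≤ (1 + ε) * s * ρ x y := mul_nonneg (by positivity) (hρnn x y)
      exact (Real.rpow_le_rpow_iff (norm_nonneg _) h10 hP0).1 h7


end Vale.Agent.P249.H206
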