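import Vale.Agent.P249.H75.TwoMoment

/-!
# P249: two moments of `q`-stable variables with constants explicit in `q - p`
-/

set_option linter.all false

open MeasureTheory Set Filter
open scoped ENNReal Topology BigOperators

namespace Vale.Agent.P249.H206

open Vale.Agent.P249 Vale.Agent.P249.H73 Vale.Agent.P249.H75

/-- An integral over `(0, ∞)` of a nonnegative function which is bounded below on `(1, 2]`. -/
theorem integral_ge_of {f : ℝ → ℝ} {c : ℝ} (hf : IntegrableOn f (Ioi 0))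
    (h0 : ∀ t, 0 < t → 0 ≤ f t) (h1 : ∀ t, 1 < t → t ≤ 2 → c ≤ f t) :
    c ≤ ∫ t in Ioi (0 : ℝ), f t := by
  have hsub : Ioc (1 : ℝ) 2 ⊆ Ioi 0 := fun t ht => lt_trans one_pos ht.1
  have h2 : ∫ t in Ioc (1 : ℝ) 2, c ≤ ∫ t in Ioc (1 : ℝ) 2, f t := by
    refine setIntegral_mono_on (integrableOn_const (by simp)) (hf.mono_set hsub)
      measurableSet_Ioc fun t ht => h1 t ht.1 ht.2
  have h3 : ∫ t in Ioc (1 : ℝ) 2, f t ≤ ∫ t in Ioi (0 : ℝ), f t := by
    refine setIntegral_mono_set hf ?_ (HasSubset.Subset.eventuallyLE hsub)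
    exact (ae_restrict_iff' measurableSet_Ioi).2 (Eventually.of_forall fun t ht => h0 t ht)
  have h4 : ∫ t in Ioc (1 : ℝ) 2, c = c := by
    simp; norm_num
  linarith

theorem four_rpow_ge {q : ℝ} (hq2 : q ≤ 2) : (1 / 64 : ℝ) ≤ 4 ^ (-1 - q) := by
  have h1 : (4 : ℝ) ^ (-3 : ℝ) = 1 / 64 := by
    rw [Real.rpow_neg (by norm_num)]
    norm_num
  rw [← h1]
  exact Real.rpow_le_rpow_of_exponent_le (by norm_num) (by linarith)

theorem Kr_ge {q : ℝ} (hq0 : 0 < q) (hq2 : q < 2) : 1 / 144 ≤ Kr q := by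
  have hint := integrableOn_cos hq0 hq2 1
  simp only [mul_one] at hint
  have hcos : Real.cos 1 ≤ 5 / 9 := Real.cos_one_le
  have h4 := four_rpow_ge hq2.le
  have h4' : 0 < (4 : ℝ) ^ (-1 - q) := by positivity
  have key : (1 - Real.cos 1) * 4 ^ (-1 - q) ≤ Kr q := by
    refine integral_ge_of hint ?_ ?_
    · intro t ht
      have := Real.cos_le_one t
      have h5 : 0 ≤ t ^ (-1 - q) := by positivity
      exact mul_nonneg (by linarith) h5
    · intro t h1 h2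
      have h6 : Real.cos t ≤ Real.cos 1 :=
        Real.cos_le_cos_of_nonneg_of_le_pi zero_le_one (by linarith [Real.pi_gt_three]) h1.le
      have h7 : (4 : ℝ) ^ (-1 - q) ≤ t ^ (-1 - q) :=
        Real.rpow_le_rpow_of_nonpos (by linarith) (by linarith) (by linarith)
      exact mul_le_mul (by linarith) h7 h4'.le (by linarith)
  have h5 : (4 / 9 : ℝ) * (1 / 64) ≤ (1 - Real.cos 1) * 4 ^ (-1 - q) :=
    mul_le_mul (by linarith) h4 (by norm_num) (by linarith)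
  linarith

theorem integral_min_le {q r B : ℝ} (hq : 0 < q) (hqr : q < r) (hB : 0 ≤ B) :
    ∫ t in Ioi (0 : ℝ), min 2 (B * t ^ r) * t ^ (-1 - q) ≤ B / (r - q) + 2 / q := by
  have hint := integrableOn_min hq hqr hB
  have h1 : IntegrableOn (fun t : ℝ => min 2 (B * t ^ r) * t ^ (-1 - q)) (Ioi 1) :=
    hint.mono_set (Ioi_subset_Ioi zero_le_one)
  have h0 : IntegrableOn (fun t : ℝ => min 2 (B * t ^ r) * t ^ (-1 - q)) (Ioc 0 1) :=
    hint.mono_set Ioc_subset_Ioi_self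
  have hs : ∫ t in Ioi (0 : ℝ), min 2 (B * t ^ r) * t ^ (-1 - q) =
      (∫ t in Ioc (0 : ℝ) 1, min 2 (B * t ^ r) * t ^ (-1 - q)) +
      ∫ t in Ioi (1 : ℝ), min 2 (B * t ^ r) * t ^ (-1 - q) := by
    rw [← setIntegral_union (Ioc_disjoint_Ioi le_rfl) measurableSet_Ioi h0 h1,
      Ioc_union_Ioi_eq_Ioi zero_le_one]
  have ha : ∫ t in Ioc (0 : ℝ) 1, min 2 (B * t ^ r) * t ^ (-1 - q) ≤ B / (r - q) := by
    have hi : IntegrableOn (fun t : ℝ => B * t ^ (r - 1 - q)) (Ioc 0 1) :=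
      ((intervalIntegral.intervalIntegrable_rpow' (a := 0) (b := 1)
        (show -1 < r - 1 - q by linarith)).1).const_mul B
    have h6 : ∫ t in Ioc (0 : ℝ) 1, min 2 (B * t ^ r) * t ^ (-1 - q) ≤
        ∫ t in Ioc (0 : ℝ) 1, B * t ^ (r - 1 - q) := by
      refine setIntegral_mono_on h0 hi measurableSet_Ioc fun t ht => ?_
      have ht0 : (0 : ℝ) < t := ht.1
      calc min 2 (B * t ^ r) * t ^ (-1 - q) ≤ (B * t ^ r) * t ^ (-1 - q) :=
            mul_le_mul_of_nonneg_right (min_le_right _ _) (by positivity)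
        _ = B * t ^ (r - 1 - q) := by
            rw [mul_assoc, ← Real.rpow_add ht0]; congr 2; ring
    refine h6.trans (le_of_eq ?_)
    rw [integral_const_mul, ← intervalIntegral.integral_of_le zero_le_one,
      integral_rpow (Or.inl (by linarith)), Real.one_rpow, Real.zero_rpow (by linarith)]
    have : r - 1 - q + 1 = r - q := by ring
    rw [this, sub_zero, mul_one_div]
  have hb : ∫ t in Ioi (1 : ℝ), min 2 (B * t ^ r) * t ^ (-1 - q) ≤ 2 / q := by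
    have hi : IntegrableOn (fun t : ℝ => 2 * t ^ (-1 - q)) (Ioi 1) :=
      (integrableOn_Ioi_rpow_of_lt (by linarith) one_pos).const_mul 2
    have h6 : ∫ t in Ioi (1 : ℝ), min 2 (B * t ^ r) * t ^ (-1 - q) ≤
        ∫ t in Ioi (1 : ℝ), 2 * t ^ (-1 - q) := by
      refine setIntegral_mono_on h1 hi measurableSet_Ioi fun t ht => ?_
      have ht0 : (0 : ℝ) < t := lt_trans one_pos ht
      exact mul_le_mul_of_nonneg_right (min_le_left _ _) (by positivity)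
    refine h6.trans (le_of_eq ?_)
    rw [integral_const_mul, integral_Ioi_rpow_of_lt (by linarith) one_pos, Real.one_rpow]
    have : (-1 - q + 1) = -q := by ring
    rw [this]
    field_simp
  linarith

theorem Kr_le {q : ℝ} (hq1 : 1 ≤ q) (hq2 : q < 2) : Kr q ≤ 1 / (2 - q) + 2 := by
  have hq0 : 0 < q := by linarith
  have hint := integrableOn_cos hq0 hq2 1
  simp only [mul_one] at hint
  have h1 : Kr q ≤ ∫ t in Ioi (0 : ℝ), min 2 (1 * t ^ (2 : ℝ)) * t ^ (-1 - q) := by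
    refine setIntegral_mono_on hint (integrableOn_min hq0 hq2 zero_le_one) measurableSet_Ioi
      fun t ht => ?_
    have ht0 : (0 : ℝ) < t := ht
    refine mul_le_mul_of_nonneg_right ?_ (by positivity)
    have := (le_abs_self _).trans (one_sub_cos_le 1 t ht0)
    simpa using this
  have h2 := integral_min_le hq0 hq2 zero_le_one
  have h3 : 2 / q ≤ 2 := by rw [div_le_iff₀ hq0]; linarith
  linarith

theorem Jr_le {κ p q : ℝ} (hκ : 0 < κ) (hq1 : 1 ≤ q) (hqp : q < p) :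
    Jr κ p q ≤ κ / (p - q) + 2 := by
  have hq0 : 0 < q := by linarith
  have hint := integrableOn_exp hκ hq0 hqp
  have h1 : Jr κ p q ≤ ∫ t in Ioi (0 : ℝ), min 2 (κ * t ^ p) * t ^ (-1 - q) := by
    refine setIntegral_mono_on hint (integrableOn_min hq0 hqp hκ.le) measurableSet_Ioi
      fun t ht => ?_
    have ht0 : (0 : ℝ) < t := ht
    refine mul_le_mul_of_nonneg_right ?_ (by positivity)
    have h3 := Real.exp_pos (-(κ * t ^ p))
    have h4 := Real.one_sub_le_exp_neg (κ * t ^ p)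
    exact le_min (by linarith) (by linarith)
  have h2 := integral_min_le hq0 hqp hκ.le
  have h3 : 2 / q ≤ 2 := by rw [div_le_iff₀ hq0]; linarith
  linarith

theorem Jr_ge {κ p q : ℝ} (hκ : 1 / 144 ≤ κ) (hq0 : 0 < q) (hq2 : q ≤ 2) (hqp : q < p) :
    (1 - Real.exp (-(1 / 144))) * (1 / 64) ≤ Jr κ p q := by
  have hκ0 : 0 < κ := by linarith
  have hp : 0 < p := hq0.trans hqp
  have h4 := four_rpow_ge hq2
  have h4' : 0 < (4 : ℝ) ^ (-1 - q) := by positivity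
  have he : Real.exp (-κ) ≤ Real.exp (-(1 / 144)) := Real.exp_le_exp.2 (by linarith)
  have he1 : Real.exp (-(1 / 144 : ℝ)) ≤ 1 := Real.exp_le_one_iff.2 (by norm_num)
  have key : (1 - Real.exp (-κ)) * 4 ^ (-1 - q) ≤ Jr κ p q := by
    refine integral_ge_of (integrableOn_exp hκ0 hq0 hqp) ?_ ?_
    · intro t ht
      have h1 : 0 ≤ κ * t ^ p := by positivity
      have h2 : Real.exp (-(κ * t ^ p)) ≤ 1 := Real.exp_le_one_iff.2 (by linarith)
      exact mul_nonneg (by linarith) (by positivity)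
    · intro t h1 h2
      have h5 : 1 ≤ t ^ p := Real.one_le_rpow h1.le hp.le
      have h6 : Real.exp (-(κ * t ^ p)) ≤ Real.exp (-κ) := by
        apply Real.exp_le_exp.2
        nlinarith
      have h7 : (4 : ℝ) ^ (-1 - q) ≤ t ^ (-1 - q) :=
        Real.rpow_le_rpow_of_nonpos (by linarith) (by linarith) (by linarith)
      have h8 : Real.exp (-κ) ≤ 1 := he.trans he1
      exact mul_le_mul (by linarith) h7 h4'.le (by
        linarith)
  have h5 : (1 - Real.exp (-(1 / 144))) * (1 / 64) ≤ (1 - Real.exp (-κ)) * 4 ^ (-1 - q) :=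
    mul_le_mul (by linarith) h4 (by norm_num) (by linarith [he.trans he1])
  linarith

/-- The Pareto law is stable-like with an explicit constant. -/
theorem par_stable {p : ℝ} (hp1 : 1 ≤ p) (hp2 : p < 2) : ∃ C : ℝ, 0 ≤ C ∧
    ∀ s : ℝ, |(∫ y, Real.cos (s * y) ∂(par p)) - Real.exp (-(p * Kr p * |s| ^ p))| ≤
      C * |s| ^ (2 : ℝ) := by
  have hp0 : 0 < p := by linarith
  have hK := Kr_pos hp0 hp2
  have hprob := par_prob hp0
  have h2p : 0 < 2 - p := by linarith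
  refine ⟨2 + p / (2 - p) + (p * Kr p) ^ 2, by positivity, fun s => ?_⟩
  have e2 : |s| ^ (2 : ℝ) = s ^ 2 := by rw [Real.rpow_two, sq_abs]
  rw [e2]
  have hs2 : 0 ≤ s ^ 2 := sq_nonneg s
  have hc : 0 ≤ p / (2 - p) := by positivity
  have h1 := par_cos hp1 hp2 s
  have hx : 0 ≤ p * Kr p * |s| ^ p := by positivity
  rcases le_or_gt |s| 1 with h | h
  · have h2 := exp_neg_close hx
    have h3 : (p * Kr p * |s| ^ p) ^ 2 ≤ (p * Kr p) ^ 2 * s ^ 2 := by
      rw [mul_pow]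
      refine mul_le_mul_of_nonneg_left ?_ (by positivity)
      have h4 : |s| ^ p ≤ |s| := by
        rcases eq_or_lt_of_le (abs_nonneg s) with h0 | h0
        · rw [← h0, Real.zero_rpow hp0.ne']
        · calc |s| ^ p ≤ |s| ^ (1 : ℝ) := Real.rpow_le_rpow_of_exponent_ge h0 h hp1
            _ = |s| := Real.rpow_one _
      have h5 : 0 ≤ |s| ^ p := by positivity
      rw [← sq_abs s]
      exact pow_le_pow_left₀ h5 h4 2
    rw [abs_le] at h1 h2 ⊢
    constructor <;> nlinarith [h1.1, h1.2, h2.1, h2.2, mul_nonneg hc hs2]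
  · have h1 : 1 ≤ s ^ 2 := by
      rw [← sq_abs]; nlinarith
    have h3 : Real.exp (-(p * Kr p * |s| ^ p)) ≤ 1 := Real.exp_le_one_iff.2 (by linarith)
    have h4 := Real.exp_pos (-(p * Kr p * |s| ^ p))
    have h5 : |∫ y, Real.cos (s * y) ∂(par p)| ≤ 1 := by
      have h := norm_integral_le_of_norm_le_const (μ := par p) (f := fun y => Real.cos (s * y))
        (C := 1) (Eventually.of_forall fun ω => by
          rw [Real.norm_eq_abs]; exact Real.abs_cos_le_one _)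
      simpa [Real.norm_eq_abs] using h
    rw [abs_le] at h5 ⊢
    have h6 : 2 ≤ (2 + p / (2 - p) + (p * Kr p) ^ 2) * s ^ 2 := by
      have : 0 ≤ (p * Kr p) ^ 2 := by positivity
      nlinarith
    constructor <;> linarith [h5.1, h5.2]

theorem consts_aux {p q r K₁ j₀ Kp Kρ Jp Jρ : ℝ} (hK₁ : 2 ≤ K₁) (hj₀ : 0 < j₀) (hp1 : 1 ≤ p)
    (hr1 : 1 ≤ r) (hδ0 : 0 < q - p) (hδ1 : q - p ≤ 1) (hKp1 : 1 / 144 ≤ Kp) (hKp2 : Kp ≤ K₁)
    (hKr1 : 1 / 144 ≤ Kρ) (hJp1 : j₀ ≤ Jp) (hJr1 : j₀ ≤ Jρ)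
    (hJp2 : Jp ≤ (2 * K₁ + 2) / (q - p)) (hJr2 : Jρ ≤ (4 * K₁ + 2) / (q - p)) :
    0 < Jp / Kp ∧ 0 < Jρ / Kρ ∧
      2 * ((Jp / Kp) ^ (-(1 / p)) * (Jρ / Kρ + Jp / Kp) ^ (1 / r)) ≤
        (2 * ((min (j₀ / K₁) 1)⁻¹ * (144 * (6 * K₁ + 4) + 1))) / (q - p) := by
  have hc₀0 : 0 < min (j₀ / K₁) 1 := lt_min (by positivity) one_pos
  have hKp0 : 0 < Kp := by linarith
  have hKr0 : 0 < Kρ := by linarith
  have hp0 : 0 < p := by linarith
  have hr0 : 0 < r := by linarith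
  have hcs0 : 0 < Jp / Kp := div_pos (by linarith) hKp0
  have hcr0 : 0 < Jρ / Kρ := div_pos (by linarith) hKr0
  have hcsge : min (j₀ / K₁) 1 ≤ Jp / Kp :=
    (min_le_left _ _).trans (div_le_div₀ (by linarith) hJp1 hKp0 hKp2)
  have hcsle : Jp / Kp ≤ 144 * ((2 * K₁ + 2) / (q - p)) := by
    rw [div_le_iff₀ hKp0]
    have h1 : 0 ≤ (2 * K₁ + 2) / (q - p) := div_nonneg (by linarith) hδ0.le
    nlinarith
  have hcrle : Jρ / Kρ ≤ 144 * ((4 * K₁ + 2) / (q - p)) := by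
    rw [div_le_iff₀ hKr0]
    have h1 : 0 ≤ (4 * K₁ + 2) / (q - p) := div_nonneg (by linarith) hδ0.le
    nlinarith
  refine ⟨hcs0, hcr0, ?_⟩
  generalize Jp / Kp = cs at *
  generalize Jρ / Kρ = cr at *
  have hc₀1 : min (j₀ / K₁) 1 ≤ 1 := min_le_right _ _
  generalize min (j₀ / K₁) 1 = c₀ at *
  have h1 : cs ^ (-(1 / p)) ≤ c₀⁻¹ := by
    calc cs ^ (-(1 / p)) ≤ c₀ ^ (-(1 / p)) :=
          Real.rpow_le_rpow_of_nonpos hc₀0 hcsge (by
            have : 0 < 1 / p := by positivity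
            linarith)
      _ ≤ c₀ ^ (-1 : ℝ) := by
          apply Real.rpow_le_rpow_of_exponent_ge hc₀0 hc₀1
          have : 1 / p ≤ 1 := by rw [div_le_one hp0]; exact hp1
          linarith
      _ = c₀⁻¹ := Real.rpow_neg_one _
  have h2 : (cr + cs) ^ (1 / r) ≤ (144 * (6 * K₁ + 4) + 1) / (q - p) := by
    have h3 : cr + cs ≤ 144 * (6 * K₁ + 4) / (q - p) := by
      have : 144 * (6 * K₁ + 4) / (q - p) =
          144 * ((4 * K₁ + 2) / (q - p)) + 144 * ((2 * K₁ + 2) / (q - p)) := by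
        ring
      rw [this]; linarith
    have h4 : 1 ≤ 1 / (q - p) := by rw [le_div_iff₀ hδ0]; linarith
    have h5 : (cr + cs) ^ (1 / r) ≤ (1 + (cr + cs)) ^ (1 / r) :=
      Real.rpow_le_rpow (by positivity) (by linarith) (by positivity)
    have h6 : (1 + (cr + cs)) ^ (1 / r) ≤ (1 + (cr + cs)) ^ (1 : ℝ) :=
      Real.rpow_le_rpow_of_exponent_le (by linarith) (by
        rw [div_le_one hr0]; exact hr1)
    rw [Real.rpow_one] at h6
    rw [add_div]
    linarith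
  have h7 : 0 ≤ (cr + cs) ^ (1 / r) := by positivity
  calc 2 * (cs ^ (-(1 / p)) * (cr + cs) ^ (1 / r))
      ≤ 2 * (c₀⁻¹ * ((144 * (6 * K₁ + 4) + 1) / (q - p))) := by
        apply mul_le_mul_of_nonneg_left _ (by norm_num)
        exact mul_le_mul h1 h2 h7 (by positivity)
    _ = _ := by ring

/-- The constants. -/
theorem stable_consts (P₀ : ℝ) (hP₀ : P₀ < 2) : ∃ C : ℝ, 1 ≤ C ∧ ∀ p q : ℝ, 1 ≤ p → p < q →
    q ≤ P₀ → 0 < Jr (q * Kr q) q p / Kr p ∧
      0 < Jr (q * Kr q) q ((p + q) / 2) / Kr ((p + q) / 2) ∧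
      2 * ((Jr (q * Kr q) q p / Kr p) ^ (-(1 / p)) *
        (Jr (q * Kr q) q ((p + q) / 2) / Kr ((p + q) / 2) + Jr (q * Kr q) q p / Kr p) ^
          (1 / ((p + q) / 2))) ≤ C / (q - p) := by
  obtain ⟨K₁, hK₁⟩ : ∃ K₁ : ℝ, K₁ = 1 / (2 - P₀) + 2 := ⟨_, rfl⟩
  have hK₁2 : 2 ≤ K₁ := by
    have : 0 < 1 / (2 - P₀) := by apply one_div_pos.2; linarith
    rw [hK₁]; linarith
  have he1 : Real.exp (-(1 / 144 : ℝ)) < 1 := by
    have := Real.exp_lt_exp.2 (show (-(1 / 144) : ℝ) < 0 by norm_num)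
    rwa [Real.exp_zero] at this
  obtain ⟨j₀, hj₀⟩ : ∃ j₀ : ℝ, j₀ = (1 - Real.exp (-(1 / 144))) * (1 / 64) := ⟨_, rfl⟩
  have hj₀0 : 0 < j₀ := by rw [hj₀]; nlinarith
  have hc₀0 : 0 < min (j₀ / K₁) 1 := lt_min (by positivity) one_pos
  have hc₀1 : 1 ≤ (min (j₀ / K₁) 1)⁻¹ := (one_le_inv₀ hc₀0).2 (min_le_right _ _)
  refine ⟨2 * ((min (j₀ / K₁) 1)⁻¹ * (144 * (6 * K₁ + 4) + 1)), ?_, fun p q hp1 hpq hq => ?_⟩
  · have : 1 ≤ (min (j₀ / K₁) 1)⁻¹ * (144 * (6 * K₁ + 4) + 1) :=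
      one_le_mul_of_one_le_of_one_le hc₀1 (by linarith)
    linarith
  have hq2 : q < 2 := by linarith
  have hq1 : 1 ≤ q := by linarith
  have hp0 : 0 < p := by linarith
  have hδ0 : 0 < q - p := by linarith
  have hδ1 : q - p ≤ 1 := by linarith
  have hr1 : 1 ≤ (p + q) / 2 := by linarith
  have hrq : (p + q) / 2 < q := by linarith
  have hpr : p < (p + q) / 2 := by linarith
  have hqr : q - (p + q) / 2 = (q - p) / 2 := by ring
  have hK : ∀ s : ℝ, 1 ≤ s → s ≤ P₀ → 1 / 144 ≤ Kr s ∧ Kr s ≤ K₁ := by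
    intro s hs1 hs2
    refine ⟨Kr_ge (by linarith) (by linarith), (Kr_le hs1 (by linarith)).trans ?_⟩
    rw [hK₁]
    have : 1 / (2 - s) ≤ 1 / (2 - P₀) := one_div_le_one_div_of_le (by linarith) (by linarith)
    linarith
  obtain ⟨hKq1, hKq2⟩ := hK q hq1 hq
  obtain ⟨hKp1, hKp2⟩ := hK p hp1 (by linarith)
  obtain ⟨hKr1, -⟩ := hK ((p + q) / 2) hr1 (by linarith)
  have hκ1 : 1 / 144 ≤ q * Kr q := by nlinarith
  have hκ2 : q * Kr q ≤ 2 * K₁ := by nlinarith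
  generalize q * Kr q = κ at *
  have hκ0 : 0 < κ := by linarith
  have hJp1 : j₀ ≤ Jr κ q p := by rw [hj₀]; exact Jr_ge hκ1 hp0 (by linarith) hpq
  have hJr1 : j₀ ≤ Jr κ q ((p + q) / 2) := by
    rw [hj₀]; exact Jr_ge hκ1 (by linarith) (by linarith) hrq
  have h22 : 2 ≤ 2 / (q - p) := by rw [le_div_iff₀ hδ0]; linarith
  have hJp2 : Jr κ q p ≤ (2 * K₁ + 2) / (q - p) := by
    refine (Jr_le hκ0 hp1 hpq).trans ?_
    rw [add_div]
    have h1 : κ / (q - p) ≤ 2 * K₁ / (q - p) := div_le_div_of_nonneg_right hκ2 hδ0.le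
    linarith
  have hJr2 : Jr κ q ((p + q) / 2) ≤ (4 * K₁ + 2) / (q - p) := by
    refine (Jr_le hκ0 hr1 hrq).trans ?_
    rw [hqr, add_div (4 * K₁)]
    have h1 : κ / ((q - p) / 2) ≤ 4 * K₁ / (q - p) := by
      rw [div_le_div_iff₀ (by linarith) hδ0]
      nlinarith
    linarith
  exact consts_aux hK₁2 hj₀0 hp1 hr1 hδ0 hδ1 hKp1 hKp2 hKr1 hJp1 hJr1 hJp2 hJr2

/-- Finite subsets of `ℓ_q^N` in `L_p` of a probability space, with `L_r` distances under control,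
`r = (p + q) / 2`. -/
theorem stable_map_x (P₀ : ℝ) (hP₀ : P₀ < 2) : ∃ C : ℝ, 1 ≤ C ∧ ∀ p q : ℝ, 1 ≤ p → p < q →
    q ≤ P₀ → ∀ η : ℝ, 0 < η → η ≤ 1 → ∀ (V : Type) (N : ℕ) (g : V → Fin N → ℝ),
      ∃ (Ω : Type) (_ : MeasurableSpace Ω) (P : Measure Ω) (_ : IsProbabilityMeasure P)
        (F : V → Ω → ℝ), (∀ x, Measurable (F x)) ∧ ∀ x y,
          Integrable (fun ω => |F x ω - F y ω| ^ p) P ∧
          Integrable (fun ω => |F x ω - F y ω| ^ ((p + q) / 2)) P ∧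
          (1 - η) * lpd q g x y ≤ (∫ ω, |F x ω - F y ω| ^ p ∂P) ^ (1 / p) ∧
          (∫ ω, |F x ω - F y ω| ^ p ∂P) ^ (1 / p) ≤ (1 + η) * lpd q g x y ∧
          (∫ ω, |F x ω - F y ω| ^ ((p + q) / 2) ∂P) ^ (1 / ((p + q) / 2)) ≤
            C / (q - p) * lpd q g x y := by
  obtain ⟨C, hC1, hC⟩ := stable_consts P₀ hP₀
  refine ⟨C, hC1, fun p q hp1 hpq hq η hη hη1 V N g => ?_⟩
  obtain ⟨hcs, hcr, hA⟩ := hC p q hp1 hpq hq
  have hq2 : q < 2 := by linarith
  have hq1 : 1 ≤ q := by linarith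
  have hq0 : 0 < q := by linarith
  set r : ℝ := (p + q) / 2 with hr
  have hr1 : 1 ≤ r := by rw [hr]; linarith
  have hrq : r < q := by rw [hr]; linarith
  have hKq := Kr_pos hq0 hq2
  have hκ : 0 < q * Kr q := by positivity
  haveI := par_prob hq0
  obtain ⟨C', hC'0, hφ⟩ := par_stable hq1 hq2
  set cs : ℝ := Jr (q * Kr q) q p / Kr p with hcsdef
  set cr : ℝ := Jr (q * Kr q) q r / Kr r with hcrdef
  obtain ⟨n, h1, h2⟩ := ((stable_eventually hp1 hpq hq2.le hκ hq2 hC'0 hφ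
    (η := cs * (η / 4)) (by positivity)).and
    (stable_eventually hr1 hrq hq2.le hκ hq2 hC'0 hφ (η := cs * (η / 4)) (by positivity))).exists
  set Pm : Measure (Fin N × Fin (n + 1) → ℝ) :=
    Measure.pi fun _ : Fin N × Fin (n + 1) => sym (par q) with hPm
  set θ : Fin N → (Fin N × Fin (n + 1) → ℝ) → ℝ :=
    fun i y => ∑ k, ((n + 1 : ℕ) : ℝ) ^ (-(1 / q)) * y (i, k) with hθ
  have hθm : ∀ i, Measurable (θ i) := fun i => by rw [hθ]; fun_prop
  have hκ0 : 0 < cs ^ (-(1 / p)) := Real.rpow_pos_of_pos hcs _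
  set K : ℝ := cs ^ (-(1 / p)) / 1 with hK
  have hK0 : 0 < K := by positivity
  refine ⟨Fin N × Fin (n + 1) → ℝ, inferInstance, Pm, inferInstance,
    fun x ω => K * ∑ i, g x i * θ i ω, fun x => by fun_prop, ?_⟩
  intro x y
  set a : Fin N → ℝ := fun i => g x i - g y i with ha
  have hRq : lpd q g x y ^ q = ∑ i, |a i| ^ q := lpd_rpow g hq0 x y
  have hR0 := lpd_nonneg g x y (P := q)
  have hpow : ∀ e : ℝ, (∑ i, |a i| ^ q) ^ (e / q) = lpd q g x y ^ e := by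
    intro e
    rw [← hRq, ← Real.rpow_mul hR0]
    congr 1
    field_simp
  have hdiff : ∀ ω, K * ∑ i, g x i * θ i ω - K * ∑ i, g y i * θ i ω = K * ∑ i, a i * θ i ω := by
    intro ω
    rw [← mul_sub, ← Finset.sum_sub_distrib]
    congr 1
    exact Finset.sum_congr rfl fun i _ => by simp only [ha]; ring
  have habs : ∀ (e : ℝ) (ω : Fin N × Fin (n + 1) → ℝ),
      |K * ∑ i, g x i * θ i ω - K * ∑ i, g y i * θ i ω| ^ e = K ^ e * |∑ i, a i * θ i ω| ^ e := by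
    intro e ω
    rw [hdiff ω, abs_mul, abs_of_pos hK0, Real.mul_rpow hK0.le (abs_nonneg _)]
  obtain ⟨hi1, hm1⟩ := h1 N a
  obtain ⟨hi2, hm2⟩ := h2 N a
  rw [hpow] at hm1 hm2
  simp_rw [habs]
  have hup' : lpd q g x y ≤ (1 + η / 4) * 1 * lpd q g x y := by nlinarith
  have hlo : 1 * lpd q g x y ≤ lpd q g x y := by rw [one_mul]
  have hI1 : 0 ≤ ∫ ω, |∑ i, a i * θ i ω| ^ p ∂Pm := integral_nonneg fun ω => by positivity
  have hI2 : 0 ≤ ∫ ω, |∑ i, a i * θ i ω| ^ r ∂Pm := integral_nonneg fun ω => by positivity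
  refine ⟨hi1.const_mul _, hi2.const_mul _, ?_, ?_, ?_⟩
  · rw [integral_const_mul]
    refine mom_low hp1 hcs hη hη1 one_pos hR0 hlo ?_
    have := (abs_le.1 hm1).1
    linarith
  · rw [integral_const_mul]
    refine mom_up hp1 hcs hη hη1 one_pos hR0 hR0 hup' hI1 ?_
    have := (abs_le.1 hm1).2
    linarith
  · rw [integral_const_mul]
    refine (mom_other hr1 hcs hcr hκ0 hη1 one_pos hR0 hR0 hup' hI2 ?_).trans
      (mul_le_mul_of_nonneg_right hA hR0)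
    have := (abs_le.1 hm2).2
    linarith

end Vale.Agent.P249.H206
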