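import Vale.Agent.P249.H206.Kern
import Vale.Agent.P249.H206.ProbX
import Vale.Agent.P249.H206.StableX
import Vale.Agent.P249.H557.ThmA

/-!
# P249: finite subsets of `ℓ_q^N` in `ℓ_p^d`, `1 ≤ p < q < 2`: explicit dependence on `q - p`
-/

set_option linter.all false

open MeasureTheory
open scoped BigOperators ENNReal

namespace Vale.Agent.P249.H206

open Vale.Agent.P249 Vale.Agent.P249.H557

/-- The estimate of the dimension. -/
theorem dim_exp {P CK C₁ δ ε l X d : ℝ} (hP1 : 1 ≤ P) (hP2 : P < 2) (hCK : 1 ≤ CK) (hC₁ : 1 ≤ C₁)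
    (hδ : 0 < δ) (hδ1 : δ ≤ 1 / 2) (hε : 0 < ε) (hε1 : ε ≤ 1) (hl : 0 ≤ l)
    (hX : X = (2 + l) / (ε * δ))
    (hd : d ≤ (32 * 8 ^ P + 2) * (80 * 2 ^ P * CK) ^ (P / (((P + (P + δ)) / 2) / P - 1)) *
      (64 * (C₁ / δ * (1 + l) / ε)) ^
        ((1 + ((P + (P + δ)) / 2) / 2) * P / (((P + (P + δ)) / 2) / P - 1) + P + 2)) :
    d ≤ Real.exp (20 * (Real.log (2050 * (320 * CK) * (64 * C₁)) / Real.log 2 + 1) *
      Real.log X / δ) := by
  have hP0 : 0 < P := by linarith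
  have hX2 : 2 ≤ X := by
    rw [hX, le_div_iff₀ (by positivity)]
    have : ε * δ ≤ 1 * 1 := mul_le_mul hε1 (by linarith) hδ.le zero_le_one
    linarith
  have hX0 : 0 < X := by linarith
  have e1 : ((P + (P + δ)) / 2) / P - 1 = δ / (2 * P) := by field_simp; ring
  rw [e1] at hd
  have e2 : P / (δ / (2 * P)) = 2 * P ^ 2 / δ := by field_simp
  have e3 : (1 + ((P + (P + δ)) / 2) / 2) * P / (δ / (2 * P)) + P + 2 =
      ((1 + ((P + (P + δ)) / 2) / 2) * (2 * P ^ 2) + (P + 2) * δ) / δ := by field_simp; ring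
  rw [e2, e3] at hd
  have hPP : P ^ 2 ≤ 4 := by nlinarith
  have h2P : (2:ℝ) ^ P ≤ 4 := by
    have := Real.rpow_le_rpow_of_exponent_le (by norm_num : (1:ℝ) ≤ 2) hP2.le
    norm_num at this
    exact this
  have h2P1 : (1:ℝ) ≤ 2 ^ P := Real.one_le_rpow (by norm_num) hP0.le
  have h8P : (8:ℝ) ^ P ≤ 64 := by
    have := Real.rpow_le_rpow_of_exponent_le (by norm_num : (1:ℝ) ≤ 8) hP2.le
    norm_num at this
    exact this
  have h8P0 : (0:ℝ) < 8 ^ P := by positivity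
  have ha : 32 * (8:ℝ) ^ P + 2 ≤ 2050 ^ (20 / δ) := by
    calc 32 * (8:ℝ) ^ P + 2 ≤ 2050 := by linarith
      _ = (2050:ℝ) ^ (1:ℝ) := (Real.rpow_one _).symm
      _ ≤ 2050 ^ (20 / δ) := Real.rpow_le_rpow_of_exponent_le (by norm_num) (by
          rw [le_div_iff₀ hδ]; linarith)
  have hb : (80 * 2 ^ P * CK) ^ (2 * P ^ 2 / δ) ≤ (320 * CK) ^ (20 / δ) := by
    have h1 : 80 * 2 ^ P * CK ≤ 320 * CK := by nlinarith
    have h2 : 1 ≤ 320 * CK := by linarith
    calc (80 * 2 ^ P * CK) ^ (2 * P ^ 2 / δ) ≤ (320 * CK) ^ (2 * P ^ 2 / δ) :=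
          Real.rpow_le_rpow (by positivity) h1 (by positivity)
      _ ≤ _ := Real.rpow_le_rpow_of_exponent_le h2
          (div_le_div_of_nonneg_right (by linarith) hδ.le)
  have hc : (64 * (C₁ / δ * (1 + l) / ε)) ^
      (((1 + ((P + (P + δ)) / 2) / 2) * (2 * P ^ 2) + (P + 2) * δ) / δ) ≤
      (64 * C₁ * X) ^ (20 / δ) := by
    have h1 : 64 * (C₁ / δ * (1 + l) / ε) ≤ 64 * C₁ * X := by
      have : C₁ / δ * (1 + l) / ε = C₁ * ((1 + l) / (ε * δ)) := by field_simp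
      rw [this, hX, ← mul_assoc]
      have h3 : (1 + l) / (ε * δ) ≤ (2 + l) / (ε * δ) :=
        div_le_div_of_nonneg_right (by linarith) (by positivity)
      exact mul_le_mul_of_nonneg_left h3 (by positivity)
    have h2 : 1 ≤ 64 * C₁ * X := by nlinarith
    have h4 : (1 + ((P + (P + δ)) / 2) / 2) * (2 * P ^ 2) + (P + 2) * δ ≤ 20 := by
      have h5 : 1 + ((P + (P + δ)) / 2) / 2 ≤ 2 + 1 / 8 := by linarith
      have h6 : (1 + ((P + (P + δ)) / 2) / 2) * (2 * P ^ 2) ≤ (2 + 1 / 8) * 8 :=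
        mul_le_mul h5 (by linarith) (by positivity) (by norm_num)
      have h7 : (P + 2) * δ ≤ 4 * (1 / 2) := mul_le_mul (by linarith) hδ1 hδ.le (by norm_num)
      linarith
    calc _ ≤ (64 * C₁ * X) ^
          (((1 + ((P + (P + δ)) / 2) / 2) * (2 * P ^ 2) + (P + 2) * δ) / δ) :=
          Real.rpow_le_rpow (by positivity) h1 (by positivity)
      _ ≤ _ := Real.rpow_le_rpow_of_exponent_le h2 (div_le_div_of_nonneg_right h4 hδ.le)
  have hCK0 : 0 < CK := by linarith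
  have hC₁0 : 0 < C₁ := by linarith
  obtain ⟨B, hB⟩ : ∃ B : ℝ, B = 2050 * (320 * CK) * (64 * C₁) := ⟨_, rfl⟩
  have hB0 : 0 < B := by rw [hB]; positivity
  have hB1 : 1 ≤ B := by
    rw [hB]
    have h1 : 1 ≤ 2050 * (320 * CK) := by linarith
    exact one_le_mul_of_one_le_of_one_le h1 (by linarith)
  have hfin : d ≤ (B * X) ^ (20 / δ) := by
    refine hd.trans ?_
    calc _ ≤ 2050 ^ (20 / δ) * (320 * CK) ^ (20 / δ) * (64 * C₁ * X) ^ (20 / δ) := by
          apply mul_le_mul (mul_le_mul ha hb (by positivity) (by positivity)) hc (by positivity)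
            (by positivity)
      _ = (B * X) ^ (20 / δ) := by
          rw [← Real.mul_rpow (by norm_num) (by positivity),
            ← Real.mul_rpow (by positivity) (by positivity), hB]
          congr 1
          ring
  rw [← hB]
  refine hfin.trans ?_
  rw [Real.rpow_def_of_pos (by positivity)]
  apply Real.exp_le_exp.2
  rw [Real.log_mul hB0.ne' hX0.ne']
  have hlog2 : 0 < Real.log 2 := Real.log_pos (by norm_num)
  have hlogX : Real.log 2 ≤ Real.log X := Real.log_le_log (by norm_num) hX2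
  have hlogB : 0 ≤ Real.log B := Real.log_nonneg hB1
  have h1 : Real.log B ≤ Real.log B / Real.log 2 * Real.log X := by
    rw [div_mul_eq_mul_div, le_div_iff₀ hlog2]
    exact mul_le_mul_of_nonneg_left hlogX hlogB
  have h2 : 0 < 20 / δ := by positivity
  calc (Real.log B + Real.log X) * (20 / δ)
      ≤ (Real.log B / Real.log 2 * Real.log X + Real.log X) * (20 / δ) :=
        mul_le_mul_of_nonneg_right (by linarith) h2.le
    _ = _ := by ring

/-- **L-D.** Explicit constants. -/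
theorem stable_embed (p : ℝ≥0∞) [Fact (1 ≤ p)] (hp2 : p < 2) : ∃ C : ℝ, 1 ≤ C ∧
    ∀ q : ℝ, p.toReal < q → q ≤ (p.toReal + 2) / 2 →
    ∀ (V : Type) [Fintype V] [Nonempty V] (N : ℕ) (g : V → Fin N → ℝ), Function.Injective g →
    ∀ ε : ℝ, 0 < ε → ε ≤ 1 →
    ∃ (d : ℕ) (W : V → PiLp p (fun _ : Fin d => ℝ)) (s : ℝ), 0 < s ∧
      (d : ℝ) ≤ Real.exp (C * Real.log ((2 + Real.log (Fintype.card V)) /
        (ε * (q - p.toReal))) / (q - p.toReal)) ∧
      ∀ x y, s * lpd q g x y ≤ ‖W x - W y‖ ∧ ‖W x - W y‖ ≤ (1 + ε) * s * lpd q g x y := by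
  classical
  have hp : p ≠ ∞ := ne_top_of_lt hp2
  have hP0 := toReal_pos_of_fact (p := p) hp
  have hP1 := one_le_toReal_of_fact (p := p) hp
  have hP2 : p.toReal < 2 := by
    have := (ENNReal.toReal_lt_toReal hp (by norm_num)).2 hp2
    simpa using this
  obtain ⟨CK, hCK1, hK⟩ := kernels_uniform ((p.toReal + 2) / 2) (by linarith)
  obtain ⟨C₁, hC₁, hS⟩ := stable_map_x ((p.toReal + 2) / 2) (by linarith)
  have hB1 : 1 ≤ 2050 * (320 * CK) * (64 * C₁) := by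
    have h1 : 1 ≤ 2050 * (320 * CK) := by linarith
    exact one_le_mul_of_one_le_of_one_le h1 (by linarith)
  have hlog2 : 0 < Real.log 2 := Real.log_pos (by norm_num)
  refine ⟨20 * (Real.log (2050 * (320 * CK) * (64 * C₁)) / Real.log 2 + 1), ?_, ?_⟩
  · have : 0 ≤ Real.log (2050 * (320 * CK) * (64 * C₁)) / Real.log 2 :=
      div_nonneg (Real.log_nonneg hB1) hlog2.le
    linarith
  intro q hPq hq V _ _ N g hg ε hε hε1
  have hcard : (1 : ℝ) ≤ Fintype.card V := by exact_mod_cast Fintype.card_pos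
  have hl0 : 0 ≤ Real.log (Fintype.card V) := Real.log_nonneg hcard
  obtain ⟨δ, hδ⟩ : ∃ δ : ℝ, δ = q - p.toReal := ⟨_, rfl⟩
  have hδ0 : 0 < δ := by rw [hδ]; linarith
  have hδ1 : δ ≤ 1 / 2 := by rw [hδ]; linarith
  have hq0 : 0 < q := by linarith
  have h2P1 : (1 : ℝ) ≤ 2 ^ p.toReal := Real.one_le_rpow (by norm_num) hP0.le
  have hP2P : p.toReal ≤ 2 ^ p.toReal := by
    have h := one_add_mul_self_le_rpow_one_add (s := 1) (by norm_num) hP1
    norm_num at h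
    linarith
  obtain ⟨η, hη⟩ : ∃ η : ℝ, η = ε / (16 * 2 ^ p.toReal) := ⟨_, rfl⟩
  have hη0 : 0 < η := by rw [hη]; positivity
  have hη1 : η ≤ 1 := by
    rw [hη, div_le_one (by positivity)]
    linarith
  have hη2 : 2 ^ p.toReal * η = ε / 16 := by rw [hη]; field_simp
  obtain ⟨Ω', _, P', _, F, hFm, hF⟩ := hS p.toReal q hP1 hPq hq η hη0 hη1 V N g
  have hρpos : ∀ x y, x ≠ y → 0 < lpd q g x y := by
    intro x y hxy
    have hne : g x ≠ g y := fun h => hxy (hg h)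
    obtain ⟨i, hi⟩ := Function.ne_iff.1 hne
    have h1 : 0 < |g x i - g y i| := abs_pos.2 (sub_ne_zero.2 hi)
    exact lt_of_lt_of_le h1 (abs_le_lpd g hq0 x y i)
  have hFp : ∀ x y : V, Integrable (fun ω => |F x ω - F y ω| ^ p.toReal) P' ∧
      (1 - ε / 16) * lpd q g x y ^ p.toReal ≤ ∫ ω, |F x ω - F y ω| ^ p.toReal ∂P' ∧
      ∫ ω, |F x ω - F y ω| ^ p.toReal ∂P' ≤ (1 + ε / 16) * lpd q g x y ^ p.toReal := by
    intro x y
    obtain ⟨h1, -, h3, h4, -⟩ := hF x y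
    have hI0 : 0 ≤ ∫ ω, |F x ω - F y ω| ^ p.toReal ∂P' :=
      integral_nonneg fun ω => Real.rpow_nonneg (abs_nonneg _) _
    obtain ⟨I, hI⟩ : ∃ I : ℝ, I = (∫ ω, |F x ω - F y ω| ^ p.toReal ∂P') ^ (1 / p.toReal) :=
      ⟨_, rfl⟩
    rw [← hI] at h3 h4
    have hI1 : 0 ≤ I := by rw [hI]; exact Real.rpow_nonneg hI0 _
    have hIP : I ^ p.toReal = ∫ ω, |F x ω - F y ω| ^ p.toReal ∂P' := by
      rw [hI, ← Real.rpow_mul hI0, one_div_mul_cancel hP0.ne', Real.rpow_one]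
    have h5 : |I - lpd q g x y| ≤ η * lpd q g x y := by
      rw [abs_le]; constructor <;> linarith
    have h6 := near_pow hP1 hI1 (lpd_nonneg g x y) hη0.le hη1 h5 hη2.le
      ((mul_le_mul_of_nonneg_right hP2P hη0.le).trans hη2.le)
    rw [hIP, abs_le] at h6
    refine ⟨h1, ?_, ?_⟩ <;> linarith [h6.1, h6.2]
  have hr0 : 0 < (p.toReal + q) / 2 := by linarith
  have hFr : ∀ x y : V, Integrable (fun ω => |F x ω - F y ω| ^ ((p.toReal + q) / 2)) P' ∧
      ∫ ω, |F x ω - F y ω| ^ ((p.toReal + q) / 2) ∂P' ≤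
        (C₁ / δ * lpd q g x y) ^ ((p.toReal + q) / 2) := by
    intro x y
    obtain ⟨-, h2, -, -, h5⟩ := hF x y
    have hI0 : 0 ≤ ∫ ω, |F x ω - F y ω| ^ ((p.toReal + q) / 2) ∂P' :=
      integral_nonneg fun ω => Real.rpow_nonneg (abs_nonneg _) _
    refine ⟨h2, ?_⟩
    rw [← hδ] at h5
    have h7 := Real.rpow_le_rpow (Real.rpow_nonneg hI0 _) h5 hr0.le
    rwa [← Real.rpow_mul hI0, one_div_mul_cancel hr0.ne', Real.rpow_one] at h7
  have hA1 : 1 ≤ C₁ / δ := by rw [le_div_iff₀ hδ0]; linarith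
  obtain ⟨d, W, s, hs, hd, hW⟩ := prob_embed_x p hp ((p.toReal + q) / 2) (by linarith) CK hCK1 V
    (fun g => hK ((p.toReal + q) / 2) (by linarith) (by linarith) g) P' F hFm
    (lpd q g) (fun x => lpd_self g hq0 x) hρpos (C₁ / δ) hA1 ε hε hε1 hFp hFr
  refine ⟨d, W, s, hs, ?_, hW⟩
  have hqe : q = p.toReal + δ := by rw [hδ]; ring
  rw [← hδ]
  rw [hqe] at hd
  exact dim_exp hP1 hP2 hCK1 hC₁ hδ0 hδ1 hε hε1 hl0 rfl hd

end Vale.Agent.P249.H206
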