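import Vale.Agent.P249.H206.LD
import Vale.Agent.P249.H75.Minimax

/-!
# P249: `stable_embed` for families indexed by a finite type
-/

set_option linter.all false

open MeasureTheory
open scoped BigOperators ENNReal

namespace Vale.Agent.P249.H206

open Vale.Agent.P249 Vale.Agent.P249.H557 Vale.Agent.P249.H75

theorem lpd_eq_nm {V : Type*} {N : ℕ} (q : ℝ) (g : V → Fin N → ℝ) (u v : V) :
    lpd q g u v = nm q (g u - g v) := rfl

theorem nm_reindex {ι κ : Type*} [Fintype ι] [Fintype κ] (q : ℝ) (e : κ ≃ ι) (v : ι → ℝ) :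
    nm q (fun j => v (e j)) = nm q v := by
  unfold nm
  rw [← e.sum_comp (fun i => |v i| ^ q)]

theorem norm_eq_nm (p : ℝ≥0∞) [Fact (1 ≤ p)] (hp : p ≠ ∞) {d : ℕ}
    (a b : PiLp p (fun _ : Fin d => ℝ)) : ‖a - b‖ = nm p.toReal (fun i => a i - b i) := by
  have h0 := toReal_pos_of_fact (p := p) hp
  rw [nm, PiLp.norm_eq_sum h0]
  simp [Real.norm_eq_abs]

/-- **L-D** in the notation `nm`. -/
theorem stable_embed_nm (p : ℝ) (hp1 : 1 ≤ p) (hp2 : p < 2) : ∃ C : ℝ, 1 ≤ C ∧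
    ∀ q : ℝ, p < q → q ≤ (p + 2) / 2 →
    ∀ (V ι : Type) [Fintype V] [Nonempty V] [Fintype ι] (x : V → ι → ℝ), Function.Injective x →
    ∀ ε : ℝ, 0 < ε → ε ≤ 1 →
    ∃ (d : ℕ) (f : V → Fin d → ℝ),
      (d : ℝ) ≤ Real.exp (C * Real.log ((2 + Real.log (Fintype.card V)) /
        (ε * (q - p))) / (q - p)) ∧
      ∀ u v, nm q (x u - x v) ≤ nm p (f u - f v) ∧
        nm p (f u - f v) ≤ (1 + ε) * nm q (x u - x v) := by
  have hp0 : 0 < p := by linarith
  have hfact : Fact ((1 : ℝ≥0∞) ≤ ENNReal.ofReal p) :=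
    ⟨by rw [← ENNReal.ofReal_one]; exact ENNReal.ofReal_le_ofReal hp1⟩
  have htr : (ENNReal.ofReal p).toReal = p := ENNReal.toReal_ofReal hp0.le
  have hlt : ENNReal.ofReal p < 2 := by
    have : (2 : ℝ≥0∞) = ENNReal.ofReal 2 := by simp
    rw [this]
    exact (ENNReal.ofReal_lt_ofReal_iff (by norm_num)).2 hp2
  obtain ⟨C, hC1, hC⟩ := stable_embed (ENNReal.ofReal p) hlt
  rw [htr] at hC
  refine ⟨C, hC1, fun q hpq hq V ι _ _ _ x hx ε hε hε1 => ?_⟩
  obtain ⟨d, W, s, hs, hd, hW⟩ := hC q hpq hq V (Fintype.card ι)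
    (fun u j => x u ((Fintype.equivFin ι).symm j)) (by
      intro u v h
      apply hx
      funext i
      have := congrFun h ((Fintype.equivFin ι) i)
      simpa using this) ε hε hε1
  refine ⟨d, fun u j => s⁻¹ * W u j, hd, fun u v => ?_⟩
  obtain ⟨h1, h2⟩ := hW u v
  have e1 : lpd q (fun u j => x u ((Fintype.equivFin ι).symm j)) u v = nm q (x u - x v) := by
    rw [lpd_eq_nm]
    exact nm_reindex q (Fintype.equivFin ι).symm (x u - x v)
  have e2 : ‖W u - W v‖ = s * nm p ((fun j => s⁻¹ * W u j) - fun j => s⁻¹ * W v j) := by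
    rw [norm_eq_nm _ ENNReal.ofReal_ne_top, htr]
    have h3 : (fun i => W u i - W v i) = s • ((fun j => s⁻¹ * W u j) - fun j => s⁻¹ * W v j) := by
      funext i
      simp only [Pi.smul_apply, Pi.sub_apply, smul_eq_mul]
      field_simp
    rw [h3, nm_smul hp1, abs_of_pos hs]
  rw [e1, e2] at h1 h2
  constructor
  · exact le_of_mul_le_mul_left h1 hs
  · have : (1 + ε) * s * nm q (x u - x v) = s * ((1 + ε) * nm q (x u - x v)) := by ring
    rw [this] at h2
    exact le_of_mul_le_mul_left h2 hs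

end Vale.Agent.P249.H206
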