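import Vale.Agent.P249.H206.LD2
import Vale.Agent.P249.H75.ModBound

/-!
# P249: `1 < p < 2`: `n`-point subsets of `L_p` in `ℓ_p^d`, `d ≤ exp (C (log n)^(2/p-1) log ((2 + log n)/ε) / ε)`
-/

set_option linter.all false

open MeasureTheory
open scoped BigOperators ENNReal

namespace Vale.Agent.P249.H206

open Vale.Agent.P249 Vale.Agent.P249.H557 Vale.Agent.P249.H75

/-- The dimension. -/
theorem upper_dim {a m C₀ ε l L : ℝ} (ha0 : 0 ≤ a) (ha1 : a ≤ 1) (hm0 : 0 < m) (hm1 : m ≤ 1)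
    (hC₀ : 1 ≤ C₀) (hε : 0 < ε) (hε1 : ε ≤ 1) (hl : 0 ≤ l) (hlL : l ≤ L) {δ : ℝ}
    (hδ : δ = ε / 8 * m / (4 * l + 2) ^ a) :
    C₀ * Real.log ((2 + l) / (ε / 8 * δ)) / δ ≤
      (C₀ * (64 / m) * (3 + Real.log (512 / m) / Real.log 2)) * (1 + L) ^ a *
        Real.log ((2 + L) / ε) / ε := by
  have hL : 0 ≤ L := hl.trans hlL
  have hA1 : 1 ≤ (4 * l + 2) ^ a := Real.one_le_rpow (by linarith) ha0
  have hA0 : 0 < (4 * l + 2) ^ a := by positivity
  have hA2 : (4 * l + 2) ^ a ≤ 4 * (1 + L) ^ a := by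
    calc (4 * l + 2) ^ a ≤ (4 * (1 + L)) ^ a :=
          Real.rpow_le_rpow (by linarith) (by linarith) ha0
      _ = 4 ^ a * (1 + L) ^ a := Real.mul_rpow (by norm_num) (by linarith)
      _ ≤ 4 * (1 + L) ^ a := by
          apply mul_le_mul_of_nonneg_right _ (Real.rpow_nonneg (by linarith) _)
          calc (4 : ℝ) ^ a ≤ 4 ^ (1 : ℝ) := Real.rpow_le_rpow_of_exponent_le (by norm_num) ha1
            _ = 4 := Real.rpow_one _
  have hA3 : (4 * l + 2) ^ a ≤ 4 * (1 + L) := by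
    refine hA2.trans ?_
    apply mul_le_mul_of_nonneg_left _ (by norm_num)
    calc (1 + L) ^ a ≤ (1 + L) ^ (1 : ℝ) := Real.rpow_le_rpow_of_exponent_le (by linarith) ha1
      _ = 1 + L := Real.rpow_one _
  have hδ0 : 0 < δ := by rw [hδ]; positivity
  have hinv : 1 / δ = 8 * (4 * l + 2) ^ a / (ε * m) := by rw [hδ]; field_simp
  have hinv2 : 1 / δ ≤ 32 / m * (1 + L) ^ a / ε := by
    rw [hinv]
    calc 8 * (4 * l + 2) ^ a / (ε * m) ≤ 8 * (4 * (1 + L) ^ a) / (ε * m) := by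
          apply div_le_div_of_nonneg_right _ (by positivity)
          linarith
      _ = _ := by field_simp; ring
  -- the logarithm
  have hX2 : 2 ≤ (2 + L) / ε := by
    rw [le_div_iff₀ hε]; nlinarith
  set X : ℝ := (2 + L) / ε with hX
  have hX0 : 0 < X := by linarith
  have hlog2 : 0 < Real.log 2 := Real.log_pos (by norm_num)
  have hlogX : Real.log 2 ≤ Real.log X := Real.log_le_log (by norm_num) hX2
  have hY : (2 + l) / (ε / 8 * δ) ≤ 512 / m * X ^ 3 := by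
    have e1 : (2 + l) / (ε / 8 * δ) = 8 * (2 + l) / ε * (1 / δ) := by field_simp
    rw [e1, hinv]
    have h1 : 8 * (2 + l) / ε ≤ 8 * X := by
      rw [hX, ← mul_div_assoc]
      apply div_le_div_of_nonneg_right _ hε.le
      linarith
    have h2 : 8 * (4 * l + 2) ^ a / (ε * m) ≤ 32 / m * X := by
      have e2 : 32 / m * X = 8 * (4 * (2 + L)) / (ε * m) := by rw [hX]; field_simp; ring
      rw [e2]
      apply div_le_div_of_nonneg_right _ (by positivity)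
      linarith
    have h3 : 8 * X * (32 / m * X) ≤ 512 / m * X ^ 3 := by
      have : 8 * X * (32 / m * X) = 256 / m * X ^ 2 := by ring
      rw [this]
      have h4 : X ^ 2 ≤ X ^ 3 := pow_le_pow_right₀ (by linarith) (by norm_num)
      have h5 : 256 / m ≤ 512 / m := div_le_div_of_nonneg_right (by norm_num) hm0.le
      exact mul_le_mul h5 h4 (by positivity) (by positivity)
    refine le_trans (mul_le_mul h1 h2 (by positivity) (by positivity)) h3
  have hYpos : 0 < (2 + l) / (ε / 8 * δ) := by positivity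
  have hlogY : Real.log ((2 + l) / (ε / 8 * δ)) ≤
      (3 + Real.log (512 / m) / Real.log 2) * Real.log X := by
    refine (Real.log_le_log hYpos hY).trans ?_
    rw [Real.log_mul (by positivity) (by positivity), Real.log_pow]
    have h1 : 0 ≤ Real.log (512 / m) := by
      apply Real.log_nonneg
      rw [le_div_iff₀ hm0]; linarith
    have h2 : Real.log (512 / m) ≤ Real.log (512 / m) / Real.log 2 * Real.log X := by
      rw [div_mul_eq_mul_div, le_div_iff₀ hlog2]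
      exact mul_le_mul_of_nonneg_left hlogX h1
    push_cast
    linarith
  have hc0 : 0 ≤ Real.log (512 / m) / Real.log 2 := by
    apply div_nonneg _ hlog2.le
    apply Real.log_nonneg
    rw [le_div_iff₀ hm0]; linarith
  have hlogX0 : 0 ≤ Real.log X := hlog2.le.trans hlogX
  have hR0 : 0 ≤ (3 + Real.log (512 / m) / Real.log 2) * Real.log X :=
    mul_nonneg (by linarith) hlogX0
  calc C₀ * Real.log ((2 + l) / (ε / 8 * δ)) / δ
      = C₀ * (Real.log ((2 + l) / (ε / 8 * δ)) * (1 / δ)) := by ring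
    _ ≤ C₀ * (((3 + Real.log (512 / m) / Real.log 2) * Real.log X) *
          (32 / m * (1 + L) ^ a / ε)) := by
        apply mul_le_mul_of_nonneg_left _ (by linarith)
        exact mul_le_mul hlogY hinv2 (by positivity) hR0
    _ ≤ C₀ * (((3 + Real.log (512 / m) / Real.log 2) * Real.log X) *
          (64 / m * (1 + L) ^ a / ε)) := by
        apply mul_le_mul_of_nonneg_left _ (by linarith)
        apply mul_le_mul_of_nonneg_left _ hR0
        apply div_le_div_of_nonneg_right _ hε.le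
        apply mul_le_mul_of_nonneg_right _ (by positivity)
        exact div_le_div_of_nonneg_right (by norm_num) hm0.le
    _ = _ := by ring

theorem chain_ineq {ε σ t₁ t₂ t₃ t₄ : ℝ} (hε : 0 < ε) (hε1 : ε ≤ 1) (hσ : 0 < σ)
    (h0 : 0 ≤ t₄) (h1 : σ * t₄ ≤ t₃) (h2 : t₃ ≤ (1 + ε / 8) * σ * t₄)
    (h3 : (1 - ε / 8) * t₃ ≤ t₂) (h4 : t₂ ≤ (1 + ε / 8) * t₃) (h5 : t₂ ≤ t₁)
    (h6 : t₁ ≤ (1 + ε / 8) * t₂) :
    (1 - ε / 8) * σ * t₄ ≤ t₁ ∧ t₁ ≤ (1 + ε) * ((1 - ε / 8) * σ) * t₄ := by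
  have hε8 : 0 < 1 - ε / 8 := by linarith
  constructor
  · calc (1 - ε / 8) * σ * t₄ = (1 - ε / 8) * (σ * t₄) := by ring
      _ ≤ (1 - ε / 8) * t₃ := mul_le_mul_of_nonneg_left h1 hε8.le
      _ ≤ t₂ := h3
      _ ≤ t₁ := h5
  · have h7 : (1 + ε / 8) * ((1 + ε / 8) * (1 + ε / 8)) ≤ (1 + ε) * (1 - ε / 8) := by
      have e : (1 + ε) * (1 - ε / 8) - (1 + ε / 8) * ((1 + ε / 8) * (1 + ε / 8)) =
          ε * (1 / 2 - 11 / 64 * ε - 1 / 512 * ε ^ 2) := by ring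
      have h8 : 0 ≤ 1 / 2 - 11 / 64 * ε - 1 / 512 * ε ^ 2 := by nlinarith
      have := mul_nonneg hε.le h8
      linarith
    calc t₁ ≤ (1 + ε / 8) * t₂ := h6
      _ ≤ (1 + ε / 8) * ((1 + ε / 8) * t₃) := mul_le_mul_of_nonneg_left h4 (by linarith)
      _ ≤ (1 + ε / 8) * ((1 + ε / 8) * ((1 + ε / 8) * σ * t₄)) := by
          apply mul_le_mul_of_nonneg_left _ (by linarith)
          exact mul_le_mul_of_nonneg_left h2 (by linarith)
      _ = (1 + ε / 8) * ((1 + ε / 8) * (1 + ε / 8)) * (σ * t₄) := by ring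
      _ ≤ (1 + ε) * (1 - ε / 8) * (σ * t₄) :=
          mul_le_mul_of_nonneg_right h7 (by positivity)
      _ = _ := by ring

/-- The case of a finite family in `ℓ_P^ι`. -/
theorem upper_core (P : ℝ) (hP1 : 1 < P) (hP2 : P < 2) :
    ∃ C : ℝ, 1 ≤ C ∧ ∀ (V ι : Type) [Fintype V] [Nonempty V] [Fintype ι] (x : V → ι → ℝ),
      Function.Injective x → ∀ L : ℝ, Real.log (Fintype.card V) ≤ L →
      ∀ ε : ℝ, 0 < ε → ε ≤ 1 → ∃ (d : ℕ) (g : V → Fin d → ℝ) (t : V → V → ℝ),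
        (d : ℝ) ≤ Real.exp (C * (1 + L) ^ (2 / P - 1) * Real.log ((2 + L) / ε) / ε) ∧
        ∀ u v, (1 - ε / 8) * nm P (x u - x v) ≤ t u v ∧
          t u v ≤ (1 + ε / 8) * nm P (x u - x v) ∧
          t u v ≤ nm P (g u - g v) ∧ nm P (g u - g v) ≤ (1 + ε / 8) * t u v := by
  have hP0 : 0 < P := by linarith
  obtain ⟨C₀, hC₀, H⟩ := stable_embed_nm P hP1.le hP2
  have hm0 : 0 < min (1 / P - 1 / 2) (1 - 1 / P) := by
    apply lt_min
    · rw [sub_pos]; exact one_div_lt_one_div_of_lt hP0 hP2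
    · rw [sub_pos, div_lt_one hP0]; exact hP1
  obtain ⟨m, hm⟩ : ∃ m : ℝ, m = min (min (1 / P - 1 / 2) (1 - 1 / P) / 4) ((2 - P) / 2) :=
    ⟨_, rfl⟩
  have hm0' : 0 < m := by rw [hm]; exact lt_min (by linarith) (by linarith)
  have hmle1 : m ≤ min (1 / P - 1 / 2) (1 - 1 / P) / 4 := by rw [hm]; exact min_le_left _ _
  have hmle2 : m ≤ (2 - P) / 2 := by rw [hm]; exact min_le_right _ _
  have hm1 : m ≤ 1 := by linarith
  have ha0 : 0 ≤ 2 / P - 1 := by
    rw [sub_nonneg, le_div_iff₀ hP0]; linarith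
  have ha1 : 2 / P - 1 ≤ 1 := by
    have : 2 / P ≤ 2 := by rw [div_le_iff₀ hP0]; linarith
    linarith
  have hlog2 : 0 < Real.log 2 := Real.log_pos (by norm_num)
  have hc0 : 0 ≤ Real.log (512 / m) / Real.log 2 := by
    apply div_nonneg _ hlog2.le
    apply Real.log_nonneg
    rw [le_div_iff₀ hm0']; linarith
  refine ⟨C₀ * (64 / m) * (3 + Real.log (512 / m) / Real.log 2), ?_,
    fun V ι _ _ _ x hxinj L hln ε hε hε1 => ?_⟩
  · have h1 : 1 ≤ 64 / m := by rw [le_div_iff₀ hm0']; linarith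
    exact one_le_mul_of_one_le_of_one_le (one_le_mul_of_one_le_of_one_le hC₀ h1) (by linarith)
  have hcard : (1 : ℝ) ≤ Fintype.card V := by exact_mod_cast Fintype.card_pos
  have hl0 : 0 ≤ Real.log (Fintype.card V) := Real.log_nonneg hcard
  -- the exponent `q`
  obtain ⟨A, hA⟩ : ∃ A : ℝ, A = 4 * Real.log (Fintype.card V) + 2 := ⟨_, rfl⟩
  have hA1 : 1 ≤ A := by rw [hA]; linarith
  have hA0 : 0 < A := by linarith
  have hAa : 1 ≤ A ^ (2 / P - 1) := Real.one_le_rpow hA1 ha0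
  have hAa0 : 0 < A ^ (2 / P - 1) := by linarith
  obtain ⟨δ, hδ⟩ : ∃ δ : ℝ, δ = ε / 8 * m / A ^ (2 / P - 1) := ⟨_, rfl⟩
  have hδ0 : 0 < δ := by rw [hδ]; positivity
  have hδm : δ ≤ m := by
    rw [hδ, div_le_iff₀ hAa0]
    have h1 := mul_le_mul_of_nonneg_left hAa hm0'.le
    have h2 : ε / 8 * m ≤ 1 * m := mul_le_mul_of_nonneg_right (by linarith) hm0'.le
    linarith
  have hδA : δ * A ^ (2 / P - 1) = ε / 8 * m := by rw [hδ]; field_simp
  have hκ : 2 / min (1 / P - 1 / 2) (1 - 1 / P) * (1 / P - 1 / (P + δ)) * A ^ (2 / P - 1) <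
      ε / 8 := by
    have h1 : 1 / P - 1 / (P + δ) ≤ δ := by
      rw [div_sub_div _ _ hP0.ne' (by linarith : P + δ ≠ 0), div_le_iff₀ (by positivity)]
      have h11 : 1 ≤ P * (P + δ) := by nlinarith
      have h12 := mul_le_mul_of_nonneg_left h11 hδ0.le
      linarith
    have h2 : 0 < 2 / min (1 / P - 1 / 2) (1 - 1 / P) := by positivity
    calc 2 / min (1 / P - 1 / 2) (1 - 1 / P) * (1 / P - 1 / (P + δ)) * A ^ (2 / P - 1)
        ≤ 2 / min (1 / P - 1 / 2) (1 - 1 / P) * δ * A ^ (2 / P - 1) := by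
          apply mul_le_mul_of_nonneg_right _ hAa0.le
          exact mul_le_mul_of_nonneg_left h1 h2.le
      _ = ε / 8 * (2 * m / min (1 / P - 1 / 2) (1 - 1 / P)) := by
          rw [mul_assoc, hδA]; ring
      _ < ε / 8 * 1 := by
          have h3 : 2 * m / min (1 / P - 1 / 2) (1 - 1 / P) < 1 := by
            rw [div_lt_one hm0]; linarith
          exact mul_lt_mul_of_pos_left h3 (by positivity)
      _ = ε / 8 := mul_one _
  obtain ⟨F, hF⟩ := exists_embed (q := P + δ) hP1 hP2 (by linarith) (by linarith) hA1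
    (by rw [hA]; exact modBound V) x hxinj hκ
  have hFinj : Function.Injective F := by
    intro u v huv
    by_contra hne
    have h1 := (hF u v).1
    have h2 : 0 < nm P (x u - x v) := nm_pos hP0 (sub_ne_zero.2 (hxinj.ne hne))
    have h3 : nm (P + δ) (F u - F v) = 0 := by rw [huv, sub_self]; exact nm_zero (by linarith)
    rw [h3] at h1
    have h4 : 0 < (1 - ε / 8) * nm P (x u - x v) := mul_pos (by linarith) h2
    linarith
  obtain ⟨d, g, hd, hg⟩ := H (P + δ) (by linarith) (by linarith) V ι F hFinj (ε / 8)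
    (by positivity) (by linarith)
  refine ⟨d, g, fun u v => nm (P + δ) (F u - F v), ?_, fun u v =>
    ⟨(hF u v).1, (hF u v).2, (hg u v).1, (hg u v).2⟩⟩
  refine hd.trans (Real.exp_le_exp.2 ?_)
  have e1 : P + δ - P = δ := by ring
  rw [e1]
  refine upper_dim ha0 ha1 hm0' hm1 hC₀ hε hε1 hl0 hln ?_
  rw [hδ, hA]

/-- `d_p (n, 1 + ε) ≤ exp (C (log n)^(2/p-1) log ((2 + log n)/ε) / ε)` for `1 < p < 2`. -/
theorem upper_lt_two (p : ℝ≥0∞) [Fact (1 ≤ p)] (hp1 : 1 < p) (hp2 : p < 2) :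
    ∃ C : ℝ, 1 ≤ C ∧ ∀ n : ℕ, 2 ≤ n → ∀ ε : ℝ, 0 < ε → ε ≤ 1 →
      ∀ (Ω : Type) [MeasurableSpace Ω] (μ : Measure Ω) (X : Finset (Lp ℝ p μ)), X.card ≤ n →
        ∃ d : ℕ, (d : ℝ) ≤ Real.exp (C * (1 + Real.log n) ^ (2 / p.toReal - 1) *
            Real.log ((2 + Real.log n) / ε) / ε) ∧
          Embeds X p d (1 + ε) := by
  classical
  have hp : p ≠ ∞ := ne_top_of_lt hp2
  have hP0 := toReal_pos_of_fact (p := p) hp
  have hP1 : 1 < p.toReal := by
    have := (ENNReal.toReal_lt_toReal (by norm_num) hp).2 hp1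
    simpa using this
  have hP2 : p.toReal < 2 := by
    have := (ENNReal.toReal_lt_toReal hp (by norm_num)).2 hp2
    simpa using this
  obtain ⟨C, hC, H⟩ := upper_core p.toReal hP1 hP2
  refine ⟨C, hC, fun n hn ε hε hε1 Ω _ μ X hX => ?_⟩
  rcases Finset.eq_empty_or_nonempty X with h0 | h0
  · subst h0
    refine ⟨0, by rw [Nat.cast_zero]; positivity, fun _ => 0, 1, one_pos, ?_⟩
    intro x hx
    simp at hx
  have : Nonempty X := ⟨⟨h0.choose, h0.choose_spec⟩⟩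
  have hcardX : (1 : ℝ) ≤ X.card := by exact_mod_cast h0.card_pos
  have hln : Real.log X.card ≤ Real.log n :=
    Real.log_le_log (by linarith) (by exact_mod_cast hX)
  -- the embedding in `ℓ_p^N`
  obtain ⟨ε₁, hε₁⟩ : ∃ ε₁ : ℝ, ε₁ = ε / 32 := ⟨_, rfl⟩
  have hε₁0 : 0 < ε₁ := by rw [hε₁]; positivity
  have hε₁1 : ε₁ < 1 := by rw [hε₁]; linarith
  obtain ⟨N, hN⟩ : ∃ N : ℕ, N = ⌈4 * (X.card : ℝ) ^ 2 * Real.log (2 * (X.card : ℝ) ^ 2) /
    ε₁ ^ 2⌉₊ + 1 := ⟨_, rfl⟩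
  obtain ⟨f, σ, hσ, hf⟩ := embed_all_pairs hp X hε₁0 hε₁1 N (by
    rw [hN]; push_cast
    have := Nat.le_ceil (4 * (X.card : ℝ) ^ 2 * Real.log (2 * (X.card : ℝ) ^ 2) / ε₁ ^ 2)
    linarith) (by rw [hN]; exact Nat.succ_pos _)
  have hdist : ((1 + ε₁) / (1 - ε₁)) ^ (1 / p.toReal) ≤ 1 + ε / 8 := by
    have h1 : (1 + ε₁) / (1 - ε₁) ≤ 1 + ε / 8 := by
      rw [div_le_iff₀ (by linarith), hε₁]
      nlinarith
    have h2 : 1 ≤ (1 + ε₁) / (1 - ε₁) := by
      rw [le_div_iff₀ (by linarith)]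
      linarith
    calc ((1 + ε₁) / (1 - ε₁)) ^ (1 / p.toReal) ≤ ((1 + ε₁) / (1 - ε₁)) ^ (1 : ℝ) :=
          Real.rpow_le_rpow_of_exponent_le h2 (by
            rw [div_le_one hP0]; exact hP1.le)
      _ = (1 + ε₁) / (1 - ε₁) := Real.rpow_one _
      _ ≤ _ := h1
  obtain ⟨x, hxdef⟩ : ∃ x : X → Fin N → ℝ, x = fun u i => f u.1 i := ⟨_, rfl⟩
  have hnorm : ∀ u v : X, ‖f u.1 - f v.1‖ = nm p.toReal (x u - x v) := by
    intro u v
    rw [norm_eq_nm p hp, hxdef]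
    rfl
  have hx1 : ∀ u v : X, σ * ‖u.1 - v.1‖ ≤ nm p.toReal (x u - x v) ∧
      nm p.toReal (x u - x v) ≤ (1 + ε / 8) * σ * ‖u.1 - v.1‖ := by
    intro u v
    obtain ⟨h1, h2⟩ := hf u.1 u.2 v.1 v.2
    rw [hnorm] at h1 h2
    refine ⟨h1, h2.trans ?_⟩
    exact mul_le_mul_of_nonneg_right (mul_le_mul_of_nonneg_right hdist hσ.le) (norm_nonneg _)
  have hxinj : Function.Injective x := by
    intro u v huv
    by_contra hne
    have h1 := (hx1 u v).1
    have h2 : 0 < ‖u.1 - v.1‖ := norm_pos_iff.2 (sub_ne_zero.2 fun h => hne (Subtype.ext h))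
    have h3 : nm p.toReal (x u - x v) = 0 := by rw [huv, sub_self]; exact nm_zero hP0
    have h4 : 0 < σ * ‖u.1 - v.1‖ := by positivity
    linarith
  have hcardeq : Fintype.card X = X.card := Fintype.card_coe X
  obtain ⟨d, g, t, hd, hg⟩ := H X (Fin N) x hxinj (Real.log n) (by rw [hcardeq]; exact hln) ε hε
    hε1
  refine ⟨d, hd, fun y => WithLp.toLp p (if h : y ∈ X then g ⟨y, h⟩ else 0),
    (1 - ε / 8) * σ, mul_pos (by linarith) hσ, fun y hy z hz => ?_⟩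
  rw [norm_eq_nm p hp]
  simp only [dif_pos hy, dif_pos hz]
  obtain ⟨h1, h2⟩ := hx1 ⟨y, hy⟩ ⟨z, hz⟩
  obtain ⟨h3, h4, h5, h6⟩ := hg ⟨y, hy⟩ ⟨z, hz⟩
  exact chain_ineq hε hε1 hσ (norm_nonneg _) h1 h2 h3 h4 h5 h6

end Vale.Agent.P249.H206
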